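import Vale.Agent.P291.N.RhoE
import Vale.Agent.P291.M.UUform
import Vale.Agent.P291.M.UUgr

set_option autoImplicit false
set_option linter.unusedSectionVars false

/-! Transfer of decompositions from `sub D N` to `D`. -/

namespace Vale.Agent.P291.H.N

open MvPolynomial Vale.Agent.P291.G Vale.Agent.P291.H.M

section
variable {D : QData} {Z : Type} (w : Wts D Z)

lemma Trans_evA (A : Finset (B D)) (q : PQ D Z) :
    evA D Z (fun _ : Fin 1 => A)
      (rename (Sum.elim (fun p : D.I × ℕ => Sum.inl ((0 : Fin 1), p)) fun z => Sum.inr (Sum.inr z))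
        q) = evS D Z A q := by
  rw [evA, evS, aeval_rename]
  congr 2
  funext p
  rcases p with p | p <;> rfl

lemma fam_mem (N : D.I → ℕ) (q : PQ D Z) : fam D Z N q ∈ AF D Z N := by
  classical
  have h1 := AF_of D Z N
    (rename (Sum.elim (fun p : D.I × ℕ => Sum.inl ((0 : Fin 1), p)) fun z => Sum.inr (Sum.inr z))
      q : PP D Z 1)
  have h2 : (fun A : Finset (B D) => if typ D A = N then Dl D Z A * evA D Z (fun _ : Fin 1 => A)
      (rename (Sum.elim (fun p : D.I × ℕ => Sum.inl ((0 : Fin 1), p)) fun z => Sum.inr (Sum.inr z))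
        q : PP D Z 1) else 0) = fam D Z N q := by
    funext A
    rw [fam, Trans_evA]
  rw [← h2]
  convert h1

/-- elements of `VV` as finite sums (`exists_sum` in M/ZDstep.lean, same proof) -/
theorem VV_sum (ε : ℕ → ℕ) (m : ℕ) (Pr : (ℕ → D.I → ℕ) → Prop)
    {X : AddMonoidAlgebra (S D Z) (B D → ℤ)} (hX : X ∈ VV w ε m Pr) :
    ∃ (s : Finset (ℕ → D.I → ℕ)) (Q : (ℕ → D.I → ℕ) → PP D Z m), (∀ n ∈ s, Pr n) ∧
      X = ∑ n ∈ s, XQ w ε n (Q n) := by
  classical
  rw [VV, Submodule.mem_iSup_iff_exists_finsupp] at hX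
  obtain ⟨f, hf, hs⟩ := hX
  have h1 : ∀ n ∈ f.support, Pr n := by
    intro n hn
    by_contra h
    have h2 := hf n
    rw [iSup_neg h, Submodule.mem_bot] at h2
    exact Finsupp.mem_support_iff.1 hn h2
  have h2 : ∀ n, ∃ Q : PP D Z m, n ∈ f.support → f n = XQ w ε n Q := by
    intro n
    by_cases hn : n ∈ f.support
    · have h3 := hf n
      rw [iSup_pos (h1 n hn)] at h3
      obtain ⟨Q, hQ⟩ := exists_XQ w ε m n h3
      exact ⟨Q, fun _ => hQ⟩
    · exact ⟨0, fun h => absurd h hn⟩
  choose Q hQ using h2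
  refine ⟨f.support, Q, h1, ?_⟩
  rw [← hs]
  exact Finset.sum_congr rfl fun n hn => hQ n hn

lemma Trans_ind_inj {A A' : Finset (B D)} (h : ind D A = ind D A') : A = A' := by
  ext b
  have h1 := congrFun h b
  unfold ind at h1
  by_cases h2 : b ∈ A <;> by_cases h3 : b ∈ A' <;> simp_all

/-- the type of the exponent of a product of slots -/
lemma Trans_typ (A : Finset (B D)) (i : D.I) :
    ∑ a : B D, (if a.1 = i then ind D A a else 0) = (typ D A i : ℤ) := by
  classical
  rw [typ, Finset.card_filter, Nat.cast_sum, ← Finset.sum_subset (Finset.subset_univ A)]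
  · refine Finset.sum_congr rfl fun a ha => ?_
    have h1 : ind D A a = 1 := if_pos ha
    rw [h1]
    push_cast
    rfl
  · intro a _ ha
    have h1 : ind D A a = 0 := if_neg ha
    rw [h1, ite_self]

open Classical in
/-- coefficients of `slot (fam ..) * single 0 (..)` -/
lemma Trans_coeff_slot (N : D.I → ℕ) (q : PQ D Z) (k : ℕ) (l : B D → ℤ) :
    (slot w 0 (fam D Z N q) * AddMonoidAlgebra.single 0 (del D Z ^ k)).coeff l =
      ∑ A : Finset (B D), if ind D A = l then fam D Z N q A * e w A * del D Z ^ k else 0 := by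
  have h1 : slot w 0 (fam D Z N q) = ∑ A, AddMonoidAlgebra.single (ind D A)
      (fam D Z N q A * (e w A * zs w A ^ 0)) := rfl
  rw [h1, Finset.sum_mul, AddMonoidAlgebra.coeff_sum, Finsupp.finsetSum_apply]
  refine Finset.sum_congr rfl fun A _ => ?_
  rw [AddMonoidAlgebra.single_mul_single, add_zero, pow_zero, mul_one,
    AddMonoidAlgebra.coeff_single, Finsupp.single_apply]

/-- the exponent of a product of slots of total type `N` -/
lemma Trans_supp {N : D.I → ℕ} {m : ℕ} {n : ℕ → D.I → ℕ} (hn : totN D N m n) (ε : ℕ → ℕ)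
    (Q : PP D Z m) {l : B D → ℤ}
    (hl : ¬ ((∀ a, 0 ≤ l a) ∧ ∀ i, ∑ a : B D, (if a.1 = i then l a else 0) = (N i : ℤ))) :
    (XQ w ε n Q).coeff l = 0 := by
  classical
  rw [coeff_XQ_gen]
  refine Finset.sum_eq_zero fun A _ => ?_
  rw [if_neg]
  rintro ⟨h1, h2⟩
  apply hl
  have h3 : ∀ a, l a = ∑ t, ind D (A t) a := by
    intro a
    rw [← h2, Finset.sum_apply]
  refine ⟨fun a => ?_, fun i => ?_⟩
  · rw [h3 a]
    refine Finset.sum_nonneg fun t _ => ?_
    unfold ind
    split_ifs <;> norm_num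
  · have h4 : ∑ a : B D, (if a.1 = i then l a else 0) =
        ∑ t : Fin m, ∑ a : B D, (if a.1 = i then ind D (A t) a else 0) := by
      rw [Finset.sum_comm]
      refine Finset.sum_congr rfl fun a _ => ?_
      rw [h3 a]
      split_ifs
      · rfl
      · rw [Finset.sum_const_zero]
    rw [h4, Finset.sum_congr rfl fun t _ => Trans_typ (A t) i]
    rw [Finset.sum_congr rfl fun (t : Fin m) _ => by rw [h1 t], ← hn.2, Finset.sum_apply,
      Nat.cast_sum]
    exact Fin.sum_univ_eq_sum_range (fun j => ((n j i : ℕ) : ℤ)) m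

open Classical in
/-- the coefficient at `l` in terms of the inner weights -/
lemma trans_loc (ε : ℕ → ℕ) {m : ℕ} (s : Finset (ℕ → D.I → ℕ))
    (Q : (ℕ → D.I → ℕ) → PP D Z m) (C : Finset (B D)) (l : B D → ℤ)
    (hC : ∀ A : Fin m → Finset (B D), ∑ t, ind D (A t) = l → ∀ t, A t ⊆ C) :
    (∑ n ∈ s, XQ w ε n (Q n)).coeff l * (OmC D Z C l * PiC D Z C ^ m) =
      (del D Z ^ m * HC w C l) * ∑ n ∈ s, ∑ A : Fin m → Finset (B D),
        if (∀ t : Fin m, typ D (A t) = n t) ∧ ∑ t, ind D (A t) = l then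
          evA D Z A (Q n) * LC w C ε A else 0 := by
  rw [AddMonoidAlgebra.coeff_sum, Finsupp.finsetSum_apply, Finset.sum_mul, Finset.mul_sum]
  refine Finset.sum_congr rfl fun n _ => ?_
  rw [coeff_XQ_gen, Finset.sum_mul, Finset.mul_sum]
  refine Finset.sum_congr rfl fun A _ => ?_
  by_cases hA : (∀ t : Fin m, typ D (A t) = n t) ∧ ∑ t, ind D (A t) = l
  · rw [if_pos hA, if_pos hA]
    linear_combination (evA D Z A (Q n)) * loc_main w ε (hC A hA.2) hA.2
  · rw [if_neg hA, if_neg hA, zero_mul, mul_zero]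

end

section
variable {D : QData} {Z : Type} {N : D.I → ℕ} {w' : Wts (sub D N) Z} {w : Wts D Z}

lemma trans_supp {ρ : B (sub D N) → B D} {C' : Finset (B (sub D N))} {l : B D → ℤ}
    (h : Rho ρ C' l) {m : ℕ} (A : Fin m → Finset (B D)) (hA : ∑ t, ind D (A t) = l) (t : Fin m) :
    A t ⊆ C'.image ρ := by
  classical
  intro a ha
  rw [rho_image h, Finset.mem_filter]
  refine ⟨Finset.mem_univ _, fun hl => ?_⟩
  have h1 : l a = ∑ t, ind D (A t) a := by
    rw [← hA, Finset.sum_apply]
  have h2 : ind D (A t) a ≤ ∑ t, ind D (A t) a :=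
    Finset.single_le_sum (f := fun t => ind D (A t) a)
      (fun s _ => by unfold ind; split_ifs <;> norm_num) (Finset.mem_univ t)
  have h3 : ind D (A t) a = 1 := if_pos ha
  omega

open Classical in
/-- Proof. Let `C = C'.image ρ = {a | l a ≠ 0}`. Take the coefficient at `l' = pull ρ C' l` of `hs`
(`coeff_XQ_gen`); multiply with `OmC C' l' * PiC C' ^ m` and use `loc_main` (`rho_sub`), cancel
`del ^ m * HC`:
`∑ n ∈ s, ∑ A', [..] evA A' (Q n) * LC w' C' ε A' = [l' = ind univ] r * PiC C' ^ m`
(for `l' = ind univ` one has `C' = univ`, `OmC univ _ = 1`, `HC univ _ = 1`). Apply `rn ρ`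
(`rn_evA`, `rn_LC`, `rn_PiC`), use `rho_sum` to get a sum over the `A`, multiply with
`del ^ m * HC w C l`, use `loc_main` again and cancel `PiC C ^ m`. -/
theorem trans_coeff (hc : Cpt w' w) (ε : ℕ → ℕ) {m : ℕ} (s : Finset (ℕ → D.I → ℕ))
    (Q : (ℕ → D.I → ℕ) → PP D Z m) {r : S (sub D N) Z}
    (hs : ∑ n ∈ s, XQ w' ε n (Q n) =
      AddMonoidAlgebra.single (ind (sub D N) Finset.univ) (r * del (sub D N) Z ^ m))
    {ρ : B (sub D N) → B D} {C' : Finset (B (sub D N))} {l : B D → ℤ} (h : Rho ρ C' l) :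
    (∑ n ∈ s, XQ w ε n (th D Z m (Q n))).coeff l * OmC D Z (C'.image ρ) l =
      if pull ρ C' l = ind (sub D N) Finset.univ then
        rn Z ρ r * (del D Z ^ m * HC w (C'.image ρ) l) else 0 := by
  have hdel : del (sub D N) Z ^ m ≠ 0 := pow_ne_zero m (del_ne_zero (sub D N) Z)
  -- the reduced identity for `sub D N`
  have h1 : (∑ n ∈ s, ∑ A : Fin m → Finset (B (sub D N)),
      if (∀ t : Fin m, typ (sub D N) (A t) = n t) ∧ ∑ t, ind (sub D N) (A t) = pull ρ C' l then
        evA (sub D N) Z A (Q n) * LC w' C' ε A else 0) =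
      if pull ρ C' l = ind (sub D N) Finset.univ then r * PiC (sub D N) Z C' ^ m else 0 := by
    have h2 := trans_loc w' ε s Q C' (pull ρ C' l) fun A hA t => rho_sub h hA t
    rw [hs, AddMonoidAlgebra.coeff_single, Finsupp.single_apply] at h2
    by_cases hp : pull ρ C' l = ind (sub D N) Finset.univ
    · have hC' : C' = Finset.univ := by
        refine Finset.eq_univ_iff_forall.2 fun b => ?_
        by_contra hb
        have h3 := congrFun hp b
        rw [pull, if_neg hb, ind, if_pos (Finset.mem_univ b)] at h3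
        exact zero_ne_one h3
      rw [if_pos hp]
      rw [if_pos hp.symm] at h2
      have hOm : OmC (sub D N) Z C' (pull ρ C' l) = 1 := by
        rw [hC', OmC, Finset.compl_univ]
        refine Finset.prod_eq_one fun b _ => ?_
        rw [Finset.prod_empty, one_pow]
      have hHC : HC w' C' (pull ρ C' l) = 1 := by
        rw [hC', HC, Finset.compl_univ]
        refine Finset.prod_eq_one fun b _ => ?_
        rw [Finset.prod_empty, one_pow]
      rw [hOm, hHC, mul_one, one_mul] at h2
      refine mul_left_cancel₀ hdel ?_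
      rw [← h2]
      ring
    · rw [if_neg hp]
      rw [if_neg (Ne.symm hp), zero_mul] at h2
      exact (mul_eq_zero.1 h2.symm).resolve_left (mul_ne_zero hdel (HC_ne_zero w' _ _))
  -- apply the substitution
  have h3 := congrArg (rn Z ρ) h1
  have h4 : rn Z ρ (∑ n ∈ s, ∑ A : Fin m → Finset (B (sub D N)),
      if (∀ t : Fin m, typ (sub D N) (A t) = n t) ∧ ∑ t, ind (sub D N) (A t) = pull ρ C' l then
        evA (sub D N) Z A (Q n) * LC w' C' ε A else 0) =
      ∑ n ∈ s, ∑ A : Fin m → Finset (B D),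
        if (∀ t : Fin m, typ D (A t) = n t) ∧ ∑ t, ind D (A t) = l then
          evA D Z A (th D Z m (Q n)) * LC w (C'.image ρ) ε A else 0 := by
    rw [map_sum]
    refine Finset.sum_congr rfl fun n _ => ?_
    rw [map_sum, rho_sum h n fun A => evA D Z A (th D Z m (Q n)) * LC w (C'.image ρ) ε A]
    refine Finset.sum_congr rfl fun A _ => ?_
    by_cases hA : (∀ t : Fin m, typ (sub D N) (A t) = n t) ∧
        ∑ t, ind (sub D N) (A t) = pull ρ C' l
    · rw [if_pos hA, if_pos hA, map_mul, rn_evA h hA.2, rn_LC h hc ε fun t => rho_sub h hA.2 t]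
    · rw [if_neg hA, if_neg hA, map_zero]
  rw [h4] at h3
  have h5 := trans_loc w ε s (fun n => th D Z m (Q n)) (C'.image ρ) l fun A hA t =>
    trans_supp h A hA t
  rw [h3] at h5
  refine mul_right_cancel₀ (pow_ne_zero m (PiC_ne_zero (D := D) (Z := Z) (C'.image ρ))) ?_
  rw [mul_assoc, h5]
  by_cases hp : pull ρ C' l = ind (sub D N) Finset.univ
  · rw [if_pos hp, if_pos hp, map_mul, map_pow, rn_PiC h]
    ring
  · rw [if_neg hp, if_neg hp, map_zero, mul_zero, zero_mul]

/-- TRANSFER. Proof: `VV_sum` for `w'` gives `s`, `Q`. Claim: the left side is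
`∑ n ∈ s, XQ w ε n (th (Q n))`, which is in `VV` by `XQ_mem`. Compare the coefficients at `l`.
The left side is `∑ A, single (ind A) (fam A * e A) * single 0 (del ^ (m-1))`. If `l a < 0` for some
`a`, or the type of `l` is not `N`, both coefficients are `0` (`coeff_XQ_gen`: `l = ∑ t, ind (A t)`
with `typ (A t) = n t`, `∑ n t = N` by `hP`). Otherwise `exists_rho`, `trans_coeff`: if `l = ind A`
(`pull_iff`) then `C'.image ρ = A`, `rn ρ r = evS A q` (`rn_evS`), `OmC A (ind A) = cr A Aᶜ`,
`HC = e A`, `del = cr A Aᶜ * Dl A`, cancel `cr A Aᶜ`; if `l` is not an indicator function both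
coefficients are `0` (cancel `OmC`). -/
theorem transfer (hc : Cpt w' w) (ε : ℕ → ℕ) {m : ℕ} (hm : 1 ≤ m)
    (Pr : (ℕ → D.I → ℕ) → Prop) (hP : ∀ n, Pr n → totN D N m n) (q : PQ D Z)
    (h : AddMonoidAlgebra.single (ind (sub D N) Finset.univ)
      (evS (sub D N) Z Finset.univ q * del (sub D N) Z ^ m) ∈ VV w' ε m Pr) :
    slot w 0 (fam D Z N q) * AddMonoidAlgebra.single 0 (del D Z ^ (m - 1)) ∈ VV w ε m Pr := by
  classical
  obtain ⟨s, Q, hs, hX⟩ := VV_sum w' ε m Pr h
  have hmain : slot w 0 (fam D Z N q) * AddMonoidAlgebra.single 0 (del D Z ^ (m - 1)) =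
      ∑ n ∈ s, XQ w ε n (th D Z m (Q n)) := by
    apply AddMonoidAlgebra.coeff_injective
    ext1 l
    rw [Trans_coeff_slot]
    by_cases hl : (∀ a, 0 ≤ l a) ∧ ∀ i, ∑ a : B D, (if a.1 = i then l a else 0) = (N i : ℤ)
    · obtain ⟨ρ, C', hρ⟩ := exists_rho hl.1 hl.2
      have h1 := trans_coeff hc ε s Q hX.symm hρ
      by_cases hp : pull ρ C' l = ind (sub D N) Finset.univ
      · rw [if_pos hp] at h1
        obtain ⟨A, rfl⟩ := (pull_iff hρ).1 hp
        have hA : C'.image ρ = A := by
          rw [rho_image hρ]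
          ext a
          unfold ind
          simp
        have htyp : typ D A = N := by
          funext i
          have h2 := hl.2 i
          rw [Trans_typ] at h2
          exact_mod_cast h2
        rw [hA, OmC_ind, HC_ind, rn_evS hρ] at h1
        have h3 : (∑ A' : Finset (B D), if ind D A' = ind D A then
            fam D Z N q A' * e w A' * del D Z ^ (m - 1) else 0) =
            fam D Z N q A * e w A * del D Z ^ (m - 1) := by
          rw [Finset.sum_eq_single A]
          · rw [if_pos rfl]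
          · intro A' _ hA'
            rw [if_neg fun h4 => hA' (Trans_ind_inj h4)]
          · intro h4
            exact absurd (Finset.mem_univ A) h4
        rw [h3]
        have hcr : cr D Z A Aᶜ ≠ 0 := by
          rw [← OmC_ind]
          exact OmC_ne_zero A _
        apply mul_right_cancel₀ hcr
        rw [h1]
        have hf : fam D Z N q A = Dl D Z A * evS D Z A q := by
          rw [fam, if_pos htyp]
        have hdel : del D Z ^ m = del D Z * del D Z ^ (m - 1) := by
          rw [← pow_succ']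
          congr 1
          omega
        rw [hf, hdel]
        have hD := Dl_spec D Z A
        rw [hD]
        ring
      · rw [if_neg hp] at h1
        have h2 := (mul_eq_zero.1 h1).resolve_right (OmC_ne_zero _ _)
        rw [h2]
        refine Finset.sum_eq_zero fun A _ => ?_
        rw [if_neg]
        intro h3
        exact hp ((pull_iff hρ).2 ⟨A, h3.symm⟩)
    · have h2 : (∑ n ∈ s, XQ w ε n (th D Z m (Q n))).coeff l = 0 := by
        rw [AddMonoidAlgebra.coeff_sum, Finsupp.finsetSum_apply]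
        exact Finset.sum_eq_zero fun n hn => Trans_supp w (hP n (hs n hn)) ε _ hl
      rw [h2]
      refine Finset.sum_eq_zero fun A _ => ?_
      by_cases h3 : ind D A = l
      · rw [if_pos h3]
        have h4 : typ D A ≠ N := by
          rintro rfl
          apply hl
          rw [← h3]
          refine ⟨fun a => ?_, fun i => Trans_typ A i⟩
          unfold ind
          split_ifs <;> norm_num
        have hf : fam D Z N q A = 0 := by
          rw [fam, if_neg h4]
        rw [hf, zero_mul, zero_mul]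
      · rw [if_neg h3]
  rw [hmain]
  refine Submodule.sum_mem _ fun n hn => ?_
  exact (le_iSup₂_of_le (f := fun (n : ℕ → D.I → ℕ) (_ : Pr n) => UU w ε m n)
    n (hs n hn) le_rfl) (XQ_mem w ε hm n _)

end

end Vale.Agent.P291.H.N
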