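import Vale.Agent.P291.N.Lev
import Vale.Agent.P291.N.Trans
import Vale.Agent.P291.M.WX

set_option autoImplicit false
set_option linter.unusedSectionVars false

/-! Decomposition theorems for type `N`. -/

namespace Vale.Agent.P291.H.N

open MvPolynomial Vale.Agent.P291.G Vale.Agent.P291.H.M

variable (D : QData) (N : D.I → ℕ)

/-- `N` is a root: `Δ` is not in the unframed cut ideal -/
def Root : Prop := ddT (sub D N) (ZZ D) ∉ cutU (wX (sub D N))

/-- `Δ` is not in the framed cut ideal -/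
def FrRoot : Prop := ddT (sub D N) (ZZ D) ∉ cutI (wX (sub D N))

lemma dec_xq (ρ : B (sub D N) → B D) (b : B (sub D N)) :
    rn (ZZ D) ρ (xq (sub D N) b) = xq D (ρ b) := by
  rw [rn, xq, xx, rename_X]; rfl

lemma dec_tv (ρ : B (sub D N) → B D) (a : D.A) : rn (ZZ D) ρ (tv (sub D N) a) = tv D a := by
  rw [rn, tv, rename_X]; rfl

lemma dec_zv (ρ : B (sub D N) → B D) (i : D.I) (k : Fin (D.w i)) :
    rn (ZZ D) ρ (zv (sub D N) i k) = zv D i k := by
  rw [rn, zv, rename_X]; rfl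

/-- `hq`, `zq` are products of `x c - x b + t a` and `z - x b` -/
lemma cpt_wX : Cpt (wX (sub D N)) (wX D) where
  h := by
    intro ρ hρ b c
    change rn (ZZ D) ρ (hq (sub D N) b c 0) = hq D (ρ b) (ρ c) 0
    rw [hq, hq, map_prod, hρ, hρ]
    refine Finset.prod_congr rfl fun a _ => ?_
    rw [map_add, map_add, map_sub, map_zero, dec_xq, dec_xq, dec_tv]
  z := by
    intro ρ hρ b
    change rn (ZZ D) ρ (zq (sub D N) b 0) = zq D (ρ b) 0
    rw [zq, zq, map_prod, hρ]
    refine Finset.prod_congr rfl fun k _ => ?_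
    rw [map_add, map_sub, map_zero, dec_xq, dec_zv]

lemma cpt_op {Z : Type} {w' : Wts (sub D N) Z} {w : Wts D Z} (h : Cpt w' w) :
    Cpt (opW w') (opW w) := ⟨fun ρ hρ b c => h.h ρ hρ c b, h.z⟩

/-- the evaluation at the power sums of all variables is invariant -/
lemma dec_act (q : PQ D (ZZ D)) (σ : W (sub D N)) :
    act (sub D N) (ZZ D) σ (evS (sub D N) (ZZ D) Finset.univ q) =
      evS (sub D N) (ZZ D) Finset.univ q := by
  have h1 : ((act (sub D N) (ZZ D) σ : S (sub D N) (ZZ D) →ₐ[ℂ] S (sub D N) (ZZ D))).comp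
      (evS (sub D N) (ZZ D) Finset.univ) = evS (sub D N) (ZZ D) Finset.univ := by
    refine MvPolynomial.algHom_ext fun i => ?_
    rw [AlgHom.comp_apply, evS, aeval_X]
    rcases i with p | z
    · refine (act_ps (sub D N) (ZZ D) σ _ _ _).trans ?_
      rw [mp_univ']
      rfl
    · exact act_inr (sub D N) (ZZ D) σ _
  exact DFunLike.congr_fun h1 q

/-- `levU` for `sub D N`, `wX (sub D N)`, `r = evS univ q` (invariant: `act_ps`), `lab_wX`, `nv_wX`;
`r * ddT ∈ cutU` because `ddT ∈ cutU`; then `transfer` (`ntU (sub D N) N m n` and `ntU D N m n` are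
the same proposition) -/
theorem decU (h : ¬ Root D N) : ∃ m, 1 ≤ m ∧ ∀ (w : Wts D (ZZ D)), w = wX D ∨ w = opW (wX D) →
    ∀ q : PQ D (ZZ D), slot w 0 (fam D (ZZ D) N q) *
      AddMonoidAlgebra.single 0 (del D (ZZ D) ^ (m - 1)) ∈ VV w e0 m (ntU D N m) := by
  have h0 : ddT (sub D N) (ZZ D) ∈ cutU (wX (sub D N)) := not_not.1 h
  refine ⟨Fintype.card (B (sub D N)) + 1, Nat.le_add_left 1 _, fun w hw q => ?_⟩
  have hr : ∀ σ, act (sub D N) (ZZ D) σ (evS (sub D N) (ZZ D) Finset.univ q) =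
      evS (sub D N) (ZZ D) Finset.univ q := dec_act D N q
  have hm : evS (sub D N) (ZZ D) Finset.univ q * ddT (sub D N) (ZZ D) ∈ cutU (wX (sub D N)) :=
    Ideal.mul_mem_left _ _ h0
  rcases hw with rfl | rfl
  · exact transfer (cpt_wX D N) e0 (Nat.le_add_left 1 _) (ntU D N _) (fun n hn => hn.1) q
      (levU (wX (sub D N)) (lab_wX (sub D N)) (nv_wX (sub D N)) hr hm le_rfl
        (wX (sub D N)) (Or.inl rfl))
  · exact transfer (cpt_op D N (cpt_wX D N)) e0 (Nat.le_add_left 1 _) (ntU D N _)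
      (fun n hn => hn.1) q
      (levU (wX (sub D N)) (lab_wX (sub D N)) (nv_wX (sub D N)) hr hm le_rfl
        (opW (wX (sub D N))) (Or.inr rfl))

/-- the same with `levF` -/
theorem decF (h : ¬ FrRoot D N) : ∃ m, 1 ≤ m ∧ ∀ (w : Wts D (ZZ D)), w = wX D ∨ w = opW (wX D) →
    ∀ q : PQ D (ZZ D), slot w 0 (fam D (ZZ D) N q) *
      AddMonoidAlgebra.single 0 (del D (ZZ D) ^ (m - 1)) ∈ VV w (ep 1) m (ntF D N m) := by
  have h0 : ddT (sub D N) (ZZ D) ∈ cutI (wX (sub D N)) := not_not.1 h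
  refine ⟨Fintype.card (B (sub D N)) + 1, Nat.le_add_left 1 _, fun w hw q => ?_⟩
  have hr : ∀ σ, act (sub D N) (ZZ D) σ (evS (sub D N) (ZZ D) Finset.univ q) =
      evS (sub D N) (ZZ D) Finset.univ q := dec_act D N q
  have hm : evS (sub D N) (ZZ D) Finset.univ q * ddT (sub D N) (ZZ D) ∈ cutI (wX (sub D N)) :=
    Ideal.mul_mem_left _ _ h0
  rcases hw with rfl | rfl
  · exact transfer (cpt_wX D N) (ep 1) (Nat.le_add_left 1 _) (ntF D N _) (fun n hn => hn.1) q
      (levF (wX (sub D N)) (lab_wX (sub D N)) (nv_wX (sub D N)) hr hm le_rfl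
        (wX (sub D N)) (Or.inl rfl))
  · exact transfer (cpt_op D N (cpt_wX D N)) (ep 1) (Nat.le_add_left 1 _) (ntF D N _)
      (fun n hn => hn.1) q
      (levF (wX (sub D N)) (lab_wX (sub D N)) (nv_wX (sub D N)) hr hm le_rfl
        (opW (wX (sub D N))) (Or.inr rfl))

end Vale.Agent.P291.H.N
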