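import Vale.Agent.P291.M.Defs
import Vale.Agent.P291.H.BDefs

set_option autoImplicit false
set_option linter.unusedSectionVars false

/-! Definitions for the extension to all regular characters: the theory with the dimension vector
`v` replaced by `N`, decompositions of the operators of type `N`. -/

namespace Vale.Agent.P291.H.N

open MvPolynomial Vale.Agent.P291.G Vale.Agent.P291.H.M

/-- the same data with another dimension vector -/
abbrev sub (D : QData) (N : D.I → ℕ) : QData := { D with v := N }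

section
variable {D : QData} (Z : Type)

/-- the substitution `x b ↦ x (ρ b)` -/
noncomputable def rn {N : D.I → ℕ} (ρ : B (sub D N) → B D) : S (sub D N) Z →ₐ[ℂ] S D Z :=
  rename (Sum.map ρ id)

/-- compatibility of the weights -/
structure Cpt {N : D.I → ℕ} {Z : Type} (w' : Wts (sub D N) Z) (w : Wts D Z) : Prop where
  h : ∀ ρ : B (sub D N) → B D, (∀ b, (ρ b).1 = b.1) → ∀ b c, rn Z ρ (w'.h b c) = w.h (ρ b) (ρ c)
  z : ∀ ρ : B (sub D N) → B D, (∀ b, (ρ b).1 = b.1) → ∀ b, rn Z ρ (w'.z b) = w.z (ρ b)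

variable (D)

/-- polynomials in power sums and flavors -/
abbrev PQ : Type := MvPolynomial ((D.I × ℕ) ⊕ Z) ℂ

/-- evaluation at the power sums of a subset -/
noncomputable def evS (A : Finset (B D)) : PQ D Z →ₐ[ℂ] S D Z :=
  aeval (Sum.elim (fun p => ps D Z A p.1 p.2) fun z => X (Sum.inr z))

open Classical in
/-- the alternating family of type `N` given by a polynomial in the power sums of the subset -/
noncomputable def fam (N : D.I → ℕ) (q : PQ D Z) (A : Finset (B D)) : S D Z :=
  if typ D A = N then Dl D Z A * evS D Z A q else 0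

end

section
variable {D : QData} {Z : Type}

/-- transposed weights -/
noncomputable def opW (w : Wts D Z) : Wts D Z where
  h b c := w.h c b
  z := w.z
  h_act σ b c := w.h_act σ c b
  z_act := w.z_act
  h_ne b c h := w.h_ne c b h.symm
  z_ne := w.z_ne

/-- span of the products of slots with types in `Pr` -/
noncomputable def VV (w : Wts D Z) (ε : ℕ → ℕ) (m : ℕ) (Pr : (ℕ → D.I → ℕ) → Prop) :
    Submodule ℂ (AddMonoidAlgebra (S D Z) (B D → ℤ)) :=
  ⨆ n : ℕ → D.I → ℕ, ⨆ _ : Pr n, UU w ε m n

/-- unframed cut ideal -/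
noncomputable def cutU (w : Wts D Z) : Ideal (S D Z) :=
  Ideal.span {p | ∃ N : Finset (B D), N.Nonempty ∧ N ≠ Finset.univ ∧ p = e w N * e w Nᶜ}

variable (D)

/-- sequences of `m` types with sum `N` -/
def totN (N : D.I → ℕ) (m : ℕ) (n : ℕ → D.I → ℕ) : Prop :=
  (∀ j, m ≤ j → n j = 0) ∧ ∑ j ∈ Finset.range m, n j = N

/-- framed decompositions -/
def ntF (N : D.I → ℕ) (m : ℕ) (n : ℕ → D.I → ℕ) : Prop := totN D N m n ∧ n 0 ≠ N

/-- unframed decompositions -/
def ntU (N : D.I → ℕ) (m : ℕ) (n : ℕ → D.I → ℕ) : Prop := totN D N m n ∧ ∀ j, n j ≠ N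

end

/-- all slots plain -/
def e0 (_ : ℕ) : ℕ := 0

end Vale.Agent.P291.H.N
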