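import Vale.Agent.P291.N.Defs
import Vale.Agent.P291.M.Spec
import Vale.Agent.P291.H.Quad
import Vale.Agent.P291.H.Pad

set_option autoImplicit false
set_option linter.unusedSectionVars false

/-! Evaluation of products of slots in the abelianized algebra. -/

namespace Vale.Agent.P291.H.N

open MvPolynomial Vale.Agent.P291.G Vale.Agent.P291.H.M

variable (D : QData) {K L : Type} [Field K] [Algebra ℂ K] [CommRing L] [Algebra K L]
  (x : B D → K) (y : Fin D.rk → K) (u : Module.Basis (B D → ℤ) K L)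

/-- evaluation of the coefficients, `u^l ↦ U l` -/
noncomputable def Ev (U : (B D → ℤ) → L) (h0 : U 0 = 1) (hU : ∀ l l', U (l + l') = U l * U l') :
    AddMonoidAlgebra (S D (ZZ D)) (B D → ℤ) →+* L :=
  AddMonoidAlgebra.liftNCRingHom
    ((algebraMap K L).comp (((EV D x y).comp (spec D)).toRingHom))
    { toFun := fun l => U (Multiplicative.toAdd l)
      map_one' := h0
      map_mul' := fun _ _ => hU _ _ }
    (fun _ _ => Commute.all _ _)

lemma Ev_single (U : (B D → ℤ) → L) (h0 : U 0 = 1) (hU : ∀ l l', U (l + l') = U l * U l')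
    (l : B D → ℤ) (s : S D (ZZ D)) :
    Ev D x y U h0 hU (AddMonoidAlgebra.single l s) = EV D x y (spec D s) • U l := by
  rw [Algebra.smul_def]
  unfold Ev
  rw [AddMonoidAlgebra.liftNCRingHom_single]
  rfl

/-- positive operator of an alternating family -/
noncomputable def opP (φ : Finset (B D) → S D (Fin D.rk)) : L :=
  ∑ A, (EV D x y (φ A * (e (wF D) A * zs (wF D) A))) • u (ind D A)

/-- negative operator of an alternating family -/
noncomputable def opN (ψ : Finset (B D) → S D (Fin D.rk)) : L :=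
  ∑ C, (EV D x y (ψ C * e (wF D) Cᶜ)) • u (-ind D C)

/-- specialization of a family -/
noncomputable def sp (φ : Finset (B D) → S D (ZZ D)) (A : Finset (B D)) : S D (Fin D.rk) :=
  spec D (φ A)

/-- product of powers of the weights of the framing -/
noncomputable def zp (l : B D → ℤ) : K := ∏ b, EV D x y ((wF D).z b) ^ l b

/-- the four evaluations: `U1`, `U2` for the framed theorem, `U3`, `U4` for the unframed one -/
noncomputable def U1 (l : B D → ℤ) : L := u l
noncomputable def U2 (l : B D → ℤ) : L := zp D x y (-l) • u (-l)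
noncomputable def U3 (l : B D → ℤ) : L := zp D x y l • u l
noncomputable def U4 (l : B D → ℤ) : L := u (-l)

variable (hxy : AlgebraicIndependent ℂ (Sum.elim x y)) (hu : ∀ l l', u (l + l') = u l * u l')

include hxy in
private lemma n10_zs_ne (b : B D) : EV D x y ((wF D).z b) ≠ 0 := fun h =>
  (wF D).z_ne b (EV_inj D x y hxy (h.trans (map_zero (EV D x y)).symm))

private lemma n10_zp_zero : zp D x y 0 = 1 := by
  rw [zp]
  exact Finset.prod_eq_one fun b _ => by rw [Pi.zero_apply, zpow_zero]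

include hxy in
private lemma n10_zp_add (l l' : B D → ℤ) : zp D x y (l + l') = zp D x y l * zp D x y l' := by
  rw [zp, zp, zp, ← Finset.prod_mul_distrib]
  refine Finset.prod_congr rfl fun b _ => ?_
  rw [Pi.add_apply, zpow_add₀ (n10_zs_ne D x y hxy b)]

include hu in
lemma U1_zero : U1 D u 0 = 1 := PadAux.pu_zero D u hu

include hu in
lemma U1_add (l l' : B D → ℤ) : U1 D u (l + l') = U1 D u l * U1 D u l' := hu l l'

include hu hxy in
lemma U2_zero : U2 D x y u 0 = 1 := by
  rw [U2, neg_zero, n10_zp_zero, one_smul, PadAux.pu_zero D u hu]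

include hu hxy in
lemma U2_add (l l' : B D → ℤ) : U2 D x y u (l + l') = U2 D x y u l * U2 D x y u l' := by
  rw [U2, U2, U2, neg_add, n10_zp_add D x y hxy, hu, smul_mul_smul_comm]

include hu hxy in
lemma U3_zero : U3 D x y u 0 = 1 := by
  rw [U3, n10_zp_zero, one_smul, PadAux.pu_zero D u hu]

include hu hxy in
lemma U3_add (l l' : B D → ℤ) : U3 D x y u (l + l') = U3 D x y u l * U3 D x y u l' := by
  rw [U3, U3, U3, n10_zp_add D x y hxy, hu, smul_mul_smul_comm]

include hu in
lemma U4_zero : U4 D u 0 = 1 := by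
  rw [U4, neg_zero, PadAux.pu_zero D u hu]

include hu in
lemma U4_add (l l' : B D → ℤ) : U4 D u (l + l') = U4 D u l * U4 D u l' := by
  rw [U4, U4, U4, neg_add, hu]

/-- `spec` maps the weights `wX` to `wF` (`spec_e`, `spec_zs` in M/Spec.lean) -/
theorem ev1_one (φ : Finset (B D) → S D (ZZ D)) :
    Ev D x y (U1 D u) (U1_zero D u hu) (U1_add D u hu) (slot (wX D) 1 φ) = opP D x y u (sp D φ) := by
  change Ev D x y (U1 D u) (U1_zero D u hu) (U1_add D u hu)
    (∑ A, AddMonoidAlgebra.single (ind D A) (φ A * (e (wX D) A * zs (wX D) A ^ 1))) = _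
  rw [map_sum, opP]
  refine Finset.sum_congr rfl fun A _ => ?_
  rw [Ev_single, pow_one, map_mul (spec D), map_mul (spec D), spec_e, spec_zs, U1, sp]

/-- reindex by `A = Cᶜ`, `ind Cᶜ = ind univ - ind C` -/
theorem ev1_zero (φ : Finset (B D) → S D (ZZ D)) :
    Ev D x y (U1 D u) (U1_zero D u hu) (U1_add D u hu) (slot (wX D) 0 φ) =
      U1 D u (ind D Finset.univ) * opN D x y u (sp D fun C => φ Cᶜ) := by
  change Ev D x y (U1 D u) (U1_zero D u hu) (U1_add D u hu)
    (∑ A, AddMonoidAlgebra.single (ind D A) (φ A * (e (wX D) A * zs (wX D) A ^ 0))) = _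
  rw [map_sum, opN, Finset.mul_sum,
    ← Equiv.sum_comp (compl_involutive (α := Finset (B D))).toPerm]
  refine Finset.sum_congr rfl fun C _ => ?_
  change Ev D x y (U1 D u) (U1_zero D u hu) (U1_add D u hu)
    (AddMonoidAlgebra.single (ind D Cᶜ) (φ Cᶜ * (e (wX D) Cᶜ * zs (wX D) Cᶜ ^ 0))) =
    U1 D u (ind D Finset.univ) * EV D x y (spec D (φ Cᶜ) * e (wF D) Cᶜ) • u (-ind D C)
  have h1 : ind D Cᶜ = ind D Finset.univ + -ind D C := by
    funext b
    rw [Pi.add_apply, Pi.neg_apply, ind, ind, ind, if_pos (Finset.mem_univ b)]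
    by_cases hb : b ∈ C
    · rw [if_neg (by simpa using hb), if_pos hb, add_neg_cancel]
    · rw [if_pos (by simpa using hb), if_neg hb, neg_zero, add_zero]
  rw [Ev_single, pow_zero, mul_one, map_mul (spec D), spec_e, U1, U1, mul_smul_comm, h1, hu]

/-! ### the evaluations `ev2`, `ev3`, `ev4` -/

lemma Ev_slot (U : (B D → ℤ) → L) (h0 : U 0 = 1) (hU : ∀ l l', U (l + l') = U l * U l')
    (w : Wts D (ZZ D)) (ε : ℕ) (φ : Finset (B D) → S D (ZZ D)) :
    Ev D x y U h0 hU (slot w ε φ) =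
      ∑ A, EV D x y (spec D (φ A * (e w A * zs w A ^ ε))) • U (ind D A) := by
  change Ev D x y U h0 hU (∑ A, AddMonoidAlgebra.single (ind D A) (φ A * (e w A * zs w A ^ ε))) = _
  rw [map_sum]
  exact Finset.sum_congr rfl fun A _ => Ev_single D x y U h0 hU _ _

lemma e_opW {Z : Type} (w : Wts D Z) (A : Finset (B D)) : e (opW w) A = e w Aᶜ := by
  unfold e
  rw [compl_compl, Finset.prod_comm]
  rfl

lemma zs_opW {Z : Type} (w : Wts D Z) (A : Finset (B D)) : zs (opW w) A = zs w A := rfl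

lemma EV_zs (A : Finset (B D)) : EV D x y (zs (wF D) A) = ∏ b ∈ A, EV D x y ((wF D).z b) := by
  rw [zs, map_prod]

lemma zp_ind (A : Finset (B D)) : zp D x y (ind D A) = EV D x y (zs (wF D) A) := by
  rw [EV_zs, zp, ← Finset.prod_mul_prod_compl A]
  have h1 : ∏ b ∈ Aᶜ, EV D x y ((wF D).z b) ^ ind D A b = 1 := by
    refine Finset.prod_eq_one fun b hb => ?_
    rw [ind, if_neg (Finset.mem_compl.1 hb), zpow_zero]
  rw [h1, mul_one]
  refine Finset.prod_congr rfl fun b hb => ?_
  rw [ind, if_pos hb, zpow_one]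

lemma zp_neg (l : B D → ℤ) : zp D x y (-l) = (zp D x y l)⁻¹ := by
  rw [zp, zp, ← Finset.prod_inv_distrib]
  refine Finset.prod_congr rfl fun b _ => ?_
  rw [Pi.neg_apply, zpow_neg]

include hxy in
lemma EV_zs_ne (A : Finset (B D)) : EV D x y (zs (wF D) A) ≠ 0 := by
  intro h
  have h1 := EV_inj D x y hxy (h.trans (map_zero (EV D x y)).symm)
  rw [zs, Finset.prod_eq_zero_iff] at h1
  obtain ⟨b, _, hb⟩ := h1
  exact (wF D).z_ne b hb

lemma ind_compl (A : Finset (B D)) : ind D Aᶜ = ind D Finset.univ - ind D A := by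
  funext b
  rw [Pi.sub_apply, ind, ind, ind, if_pos (Finset.mem_univ b)]
  by_cases hb : b ∈ A
  · rw [if_neg (by simpa using hb), if_pos hb, sub_self]
  · rw [if_pos (by simpa using hb), if_neg hb, sub_zero]

/-- `e (opW w) A = e w Aᶜ`; `zs A * zp (-ind A) = 1` -/
theorem ev2_one (φ : Finset (B D) → S D (ZZ D)) :
    Ev D x y (U2 D x y u) (U2_zero D x y u hxy hu) (U2_add D x y u hxy hu)
      (slot (opW (wX D)) 1 φ) = opN D x y u (sp D φ) := by
  rw [Ev_slot, opN]
  refine Finset.sum_congr rfl fun A _ => ?_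
  rw [pow_one, e_opW, zs_opW, map_mul (spec D), map_mul (spec D), spec_e, spec_zs, U2, smul_smul,
    zp_neg, zp_ind, map_mul, map_mul, sp, map_mul]
  congr 1
  have h := EV_zs_ne D x y hxy A
  field_simp

theorem ev2_zero (φ : Finset (B D) → S D (ZZ D)) :
    Ev D x y (U2 D x y u) (U2_zero D x y u hxy hu) (U2_add D x y u hxy hu)
      (slot (opW (wX D)) 0 φ) =
      U2 D x y u (ind D Finset.univ) * opP D x y u (sp D fun C => φ Cᶜ) := by
  rw [Ev_slot, opP, Finset.mul_sum, ← Equiv.sum_comp (compl_involutive (α := Finset (B D))).toPerm]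
  refine Finset.sum_congr rfl fun A _ => ?_
  change EV D x y (spec D (φ Aᶜ * (e (opW (wX D)) Aᶜ * zs (opW (wX D)) Aᶜ ^ 0))) •
    U2 D x y u (ind D Aᶜ) = U2 D x y u (ind D Finset.univ) *
      EV D x y (spec D (φ Aᶜ) * (e (wF D) A * zs (wF D) A)) • u (ind D A)
  rw [pow_zero, mul_one, e_opW, compl_compl, map_mul, spec_e, U2, U2, smul_smul, mul_smul_comm,
    smul_mul_assoc, smul_smul, ← hu, ind_compl]
  have e1 : -(ind D Finset.univ - ind D A) = -ind D Finset.univ + ind D A := by abel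
  rw [e1]
  congr 1
  rw [map_mul, map_mul, map_mul, ← e1, ← ind_compl, zp_neg, zp_neg, zp_ind, zp_ind]
  have h1 := EV_zs_ne D x y hxy A
  have h2 := EV_zs_ne D x y hxy Aᶜ
  have h3 : EV D x y (zs (wF D) Finset.univ) =
      EV D x y (zs (wF D) A) * EV D x y (zs (wF D) Aᶜ) := by
    rw [EV_zs, EV_zs, EV_zs, Finset.prod_mul_prod_compl]
  rw [h3]
  field_simp

theorem ev3_zero (φ : Finset (B D) → S D (ZZ D)) :
    Ev D x y (U3 D x y u) (U3_zero D x y u hxy hu) (U3_add D x y u hxy hu)
      (slot (wX D) 0 φ) = opP D x y u (sp D φ) := by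
  rw [Ev_slot, opP]
  refine Finset.sum_congr rfl fun A _ => ?_
  rw [pow_zero, mul_one, map_mul, spec_e, U3, smul_smul, zp_ind, map_mul, map_mul, map_mul, sp,
    mul_assoc]

theorem ev4_zero (φ : Finset (B D) → S D (ZZ D)) :
    Ev D x y (U4 D u) (U4_zero D u hu) (U4_add D u hu)
      (slot (opW (wX D)) 0 φ) = opN D x y u (sp D φ) := by
  rw [Ev_slot, opN]
  refine Finset.sum_congr rfl fun A _ => ?_
  rw [pow_zero, mul_one, e_opW, map_mul, spec_e, U4, sp]

end Vale.Agent.P291.H.N
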