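import Vale.Agent.P291.N.Defs
import Vale.Agent.P291.M.Gen
import Vale.Agent.P291.M.Diag
import Vale.Agent.P291.M.UUgr

set_option autoImplicit false
set_option linter.unusedSectionVars false

/-! From colourings to products of slots, general version. -/

namespace Vale.Agent.P291.H.N

open MvPolynomial Vale.Agent.P291.G Vale.Agent.P291.H.M

variable {D : QData} {Z : Type} (w : Wts D Z)

/-- the types of a colouring -/
def tyf (D : QData) {m : ℕ} (g : B D → Fin m) (j : ℕ) : D.I → ℕ :=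
  if h : j < m then typ D (fb D g ⟨j, h⟩) else 0

section
variable (D : QData) (Z : Type)

lemma ExX_gA_le {m : ℕ} (g₀ : B D → Fin m) : gA D Z g₀ ≤ (evA D Z (fb D g₀)).range := by
  rw [gA, Algebra.adjoin_le_iff]
  rintro x (⟨⟨k, i, j⟩, rfl⟩ | ⟨z, rfl⟩)
  · refine ⟨X (Sum.inl (k, i, j)), ?_⟩
    change evA D Z (fb D g₀) (X (Sum.inl (k, i, j))) = ps D Z (fb D g₀ k) i j
    rw [evA, aeval_X]
    rfl
  · refine ⟨X (Sum.inr (Sum.inr z)), ?_⟩
    change evA D Z (fb D g₀) (X (Sum.inr (Sum.inr z))) = X (Sum.inr z)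
    rw [evA, aeval_X]
    rfl

open Classical in
lemma ExX_act_sum {m : ℕ} (g₀ : B D → Fin m) (s : S D Z) (τ : W D) :
    act D Z τ (∑ σ : W D, if g₀ ∘ (perm D σ).symm = g₀ then act D Z σ s else 0) =
      ∑ σ : W D, if g₀ ∘ (perm D σ).symm = g₀ ∘ (perm D τ).symm then act D Z σ s else 0 := by
  rw [map_sum]
  refine Fintype.sum_equiv (Equiv.mulLeft τ) _ _ fun σ => ?_
  rw [apply_ite (act D Z τ), map_zero, Equiv.coe_mulLeft, act_mul]
  refine if_congr ?_ rfl rfl
  have h1 : ∀ c, (perm D (τ * σ)).symm c = (perm D σ).symm ((perm D τ).symm c) := by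
    intro c
    rw [Equiv.symm_apply_eq]
    change c = perm D τ (perm D σ ((perm D σ).symm ((perm D τ).symm c)))
    rw [Equiv.apply_symm_apply, Equiv.apply_symm_apply]
  constructor
  · intro h
    funext c
    have h2 := congrFun h ((perm D τ).symm c)
    simp only [Function.comp_apply] at h2 ⊢
    rw [h1, h2]
  · intro h
    funext c
    have h2 := congrFun h (perm D τ c)
    simp only [Function.comp_apply] at h2 ⊢
    rwa [h1, Equiv.symm_apply_apply] at h2

open Classical in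
/-- Realisation of equivariant functions on colourings by power sums. -/
theorem realise {m : ℕ} (g₀ : B D → Fin m) (s : S D Z) :
    ∃ Q : PP D Z m, ∀ g : B D → Fin m, (∀ t, typ D (fb D g t) = typ D (fb D g₀ t)) →
      evA D Z (fb D g) Q = ∑ σ : W D, if g₀ ∘ (perm D σ).symm = g then act D Z σ s else 0 := by
  have hinv : ∀ σ : W D, (∀ b, g₀ (perm D σ b) = g₀ b) →
      act D Z σ (∑ σ : W D, if g₀ ∘ (perm D σ).symm = g₀ then act D Z σ s else 0) =
        ∑ σ : W D, if g₀ ∘ (perm D σ).symm = g₀ then act D Z σ s else 0 := by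
    intro τ hτ
    have h1 : g₀ ∘ (perm D τ).symm = g₀ := by
      funext c
      have h2 := hτ ((perm D τ).symm c)
      rw [Equiv.apply_symm_apply] at h2
      exact h2.symm
    rw [ExX_act_sum, h1]
  obtain ⟨Q, hQ⟩ := ExX_gA_le D Z g₀ (gen D Z g₀ hinv)
  refine ⟨Q, fun g hg => ?_⟩
  obtain ⟨τ, rfl⟩ := exists_conj D g g₀ hg
  have h1 : fb D (g₀ ∘ (perm D τ).symm) = fun t => mp D τ (fb D g₀ t) := by
    funext t
    exact fb_perm D τ g₀ t
  rw [h1, ← act_evA, ← ExX_act_sum]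
  exact congrArg (act D Z τ) hQ

end

section
variable {D : QData} {Z : Type} (w : Wts D Z)

lemma ExX_typ {m : ℕ} (g₀ : B D → Fin m) (σ : W D) (t : Fin m) :
    typ D (fb D (g₀ ∘ (perm D σ).symm) t) = typ D (fb D g₀ t) := by
  rw [fb_perm, typ_mp]

lemma ExX_tyf {m : ℕ} (g₀ : B D → Fin m) (t : Fin m) :
    tyf D g₀ t = typ D (fb D g₀ t) := by
  rw [tyf, dif_pos t.2]

/-- the diagonal coefficient of the element attached to a colouring -/
lemma ExX_key (ε : ℕ → ℕ) {m : ℕ} (g₀ : B D → Fin m) (s : S D Z) :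
    ∃ Q : PP D Z m, (XQ w ε (tyf D g₀) Q).coeff (ind D Finset.univ) * ddT D Z =
      del D Z ^ m * ∑ σ : W D, act D Z σ (s * (RR D Z g₀ * WW w ε g₀)) := by
  classical
  obtain ⟨Q, hQ⟩ := realise D Z g₀ s
  refine ⟨Q, ?_⟩
  rw [diag, ee]
  congr 1
  have h1 : ∀ g : B D → Fin m, (if ∀ t : Fin m, typ D (fb D g t) = tyf D g₀ t then
      evA D Z (fb D g) Q * (WW w ε g * RR D Z g) else 0) =
      ∑ σ : W D, if g₀ ∘ (perm D σ).symm = g then
        act D Z σ (s * (RR D Z g₀ * WW w ε g₀)) else 0 := by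
    intro g
    by_cases h : ∀ t : Fin m, typ D (fb D g t) = tyf D g₀ t
    · rw [if_pos h, hQ g fun t => by rw [h t, ExX_tyf], Finset.sum_mul]
      refine Finset.sum_congr rfl fun σ _ => ?_
      by_cases h2 : g₀ ∘ (perm D σ).symm = g
      · rw [if_pos h2, if_pos h2, map_mul, map_mul, act_RR, act_WW, h2]
        ring
      · rw [if_neg h2, if_neg h2, zero_mul]
    · rw [if_neg h]
      refine (Finset.sum_eq_zero fun σ _ => if_neg fun h2 => h fun t => ?_).symm
      rw [← h2, ExX_typ, ExX_tyf]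
  rw [Finset.sum_congr rfl fun g _ => h1 g, Finset.sum_comm]
  refine Finset.sum_congr rfl fun σ _ => ?_
  rw [Finset.sum_ite_eq, if_pos (Finset.mem_univ _)]

end

/-- Proof: write `r * ddT = ∑ g ∈ s, a g * (RR g * WW g)` (finite sum, cf. the proof of `exists_X` in
M/Orbit.lean). For every `g₀` take `Q` from `realise g₀ (a g₀)` and `X g₀ = XQ w ε (tyf D g₀) Q`
(`XQ_mem`); by `diag`, `realise`, `act_WW`, `act_RR`, `(X g₀).coeff (ind univ) * ddT =
del ^ m * ∑ σ, act σ (a g₀ * (RR g₀ * WW w ε g₀))` (a colouring `g` with `typ (fb g t) = tyf g₀ t`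
which is not of the form `g₀ ∘ σ⁻¹` does not exist, and the others are sums over `σ`:
`∑ g, (∑ σ, if g₀ ∘ σ⁻¹ = g then ..) = ∑ σ, ..`). Sum over `g₀ ∈ s`, use the invariance of `r` and
`ddT` (`act_ddT`) and divide by `card (W D)` (see `exists_X` in J/Orbit.lean). -/
theorem exists_XG (ε : ℕ → ℕ) {m : ℕ} (hm : 1 ≤ m) {r : S D Z} (hr : ∀ σ, act D Z σ r = r)
    (Gg : (B D → Fin m) → Prop)
    (h : r * ddT D Z ∈ Ideal.span {p | ∃ g : B D → Fin m, Gg g ∧ p = RR D Z g * WW w ε g})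
    (Pr : (ℕ → D.I → ℕ) → Prop) (hPr : ∀ g, Gg g → Pr (tyf D g)) :
    ∃ X ∈ VV w ε m Pr, X.coeff (ind D Finset.univ) = r * del D Z ^ m := by
  classical
  have h1 : {p | ∃ g : B D → Fin m, Gg g ∧ p = RR D Z g * WW w ε g} =
      (fun g : B D → Fin m => RR D Z g * WW w ε g) ''
        (Finset.univ.filter Gg : Finset (B D → Fin m)) := by
    ext p
    rw [Set.mem_image]
    constructor
    · rintro ⟨g, hg, rfl⟩
      exact ⟨g, Finset.mem_coe.2 (Finset.mem_filter.2 ⟨Finset.mem_univ _, hg⟩), rfl⟩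
    · rintro ⟨g, hg, rfl⟩
      exact ⟨g, (Finset.mem_filter.1 (Finset.mem_coe.1 hg)).2, rfl⟩
  rw [h1] at h
  obtain ⟨s, hs⟩ := (Submodule.mem_span_image_finset_iff_exists_fun' (S D Z)).1 h
  choose Q hQ using fun g : B D → Fin m => ExX_key w ε g (s g)
  have hmem : ∑ g ∈ Finset.univ.filter Gg, XQ w ε (tyf D g) (Q g) ∈ VV w ε m Pr := by
    refine Submodule.sum_mem _ fun g hg => ?_
    exact Submodule.mem_iSup_of_mem _ (Submodule.mem_iSup_of_mem
      (hPr g (Finset.mem_filter.1 hg).2) (XQ_mem w ε hm _ (Q g)))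
  refine ⟨((Fintype.card (W D) : ℕ) : ℂ)⁻¹ • ∑ g ∈ Finset.univ.filter Gg,
    XQ w ε (tyf D g) (Q g), Submodule.smul_mem _ _ hmem, ?_⟩
  refine mul_right_cancel₀ (ddT_ne_zero D Z) ?_
  rw [AddMonoidAlgebra.coeff_smul, Finsupp.smul_apply, AddMonoidAlgebra.coeff_sum,
    Finsupp.finsetSum_apply, Algebra.smul_mul_assoc, Finset.sum_mul,
    Finset.sum_congr rfl fun g _ => hQ g, ← Finset.mul_sum, Finset.sum_comm]
  have h2 : ∀ σ : W D, ∑ g ∈ Finset.univ.filter Gg,
      act D Z σ (s g * (RR D Z g * WW w ε g)) = r * ddT D Z := by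
    intro σ
    rw [← map_sum]
    have h3 : ∑ g ∈ Finset.univ.filter Gg, s g * (RR D Z g * WW w ε g) = r * ddT D Z := hs
    rw [h3, map_mul, hr, act_ddT]
  rw [Finset.sum_congr rfl fun σ _ => h2 σ, Finset.sum_const, Finset.card_univ, nsmul_eq_mul]
  have h4 : ((Fintype.card (W D) : ℕ) : S D Z) = algebraMap ℂ (S D Z) (Fintype.card (W D) : ℕ) :=
    (map_natCast _ _).symm
  have h5 : ((Fintype.card (W D) : ℕ) : ℂ) ≠ 0 := by
    exact_mod_cast Fintype.card_ne_zero
  rw [h4, ← Algebra.smul_def, mul_smul_comm, smul_smul, inv_mul_cancel₀ h5, one_smul]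
  ring

end Vale.Agent.P291.H.N
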