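import Vale.Agent.P291.N.Ev

set_option autoImplicit false
set_option linter.unusedSectionVars false

/-! Linearity over the invariants; relation with the monopole operators. -/

namespace Vale.Agent.P291.H.N

open MvPolynomial Vale.Agent.P291.G Vale.Agent.P291.H.M

variable (D : QData) {K L : Type} [Field K] [Algebra ℂ K] [CommRing L] [Algebra K L]
  (x : B D → K) (y : Fin D.rk → K) (u : Module.Basis (B D → ℤ) K L) (ν : D.I → ℤ)

/-- complement of an alternating family -/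
lemma compl_mem {Z : Type} {n : D.I → ℕ} (hn : n ≤ D.v) {φ : Finset (B D) → S D Z}
    (h : φ ∈ AF D Z n) : (fun C => φ Cᶜ) ∈ AF D Z (D.v - n) := by
  obtain ⟨h1, h2⟩ := h
  refine ⟨fun σ A => ?_, fun A hA => ?_⟩
  · have h3 := h1 σ Aᶜ
    rw [mp_compl] at h3
    exact h3
  · refine h2 Aᶜ fun h3 => hA ?_
    have h4 := typ_compl D Aᶜ
    rw [compl_compl, h3] at h4
    exact h4

lemma opP_add (φ ψ : Finset (B D) → S D (Fin D.rk)) :
    opP D x y u (φ + ψ) = opP D x y u φ + opP D x y u ψ := by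
  rw [opP, opP, opP, ← Finset.sum_add_distrib]
  refine Finset.sum_congr rfl fun A _ => ?_
  rw [Pi.add_apply, add_mul, map_add, add_smul]

lemma opP_mul (r : S D (Fin D.rk)) (φ : Finset (B D) → S D (Fin D.rk)) :
    opP D x y u (fun A => r * φ A) = EV D x y r • opP D x y u φ := by
  rw [opP, opP, Finset.smul_sum]
  refine Finset.sum_congr rfl fun A _ => ?_
  rw [mul_assoc, map_mul, mul_smul]

lemma opN_add (φ ψ : Finset (B D) → S D (Fin D.rk)) :
    opN D x y u (φ + ψ) = opN D x y u φ + opN D x y u ψ := by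
  rw [opN, opN, opN, ← Finset.sum_add_distrib]
  refine Finset.sum_congr rfl fun A _ => ?_
  rw [Pi.add_apply, add_mul, map_add, add_smul]

lemma opN_mul (r : S D (Fin D.rk)) (φ : Finset (B D) → S D (Fin D.rk)) :
    opN D x y u (fun A => r * φ A) = EV D x y r • opN D x y u φ := by
  rw [opN, opN, Finset.smul_sum]
  refine Finset.sum_congr rfl fun A _ => ?_
  rw [mul_assoc, map_mul, mul_smul]

lemma lin_min_ind (A : Finset (B D)) : Min D (ind D A) := by
  intro b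
  rw [ind]
  split_ifs
  · exact Or.inr rfl
  · exact Or.inl rfl

/-- the operator of an orbit sum is the alternating sum -/
lemma lin_opP_orb (A₀ : Finset (B D)) (h : S D (Fin D.rk)) :
    opP D x y u (orb D (Fin D.rk) A₀ h) = TT D x y u (ind D A₀) h := by
  classical
  have h1 : ∀ A : Finset (B D), (EV D x y (orb D (Fin D.rk) A₀ h A *
      (e (wF D) A * zs (wF D) A))) • u (ind D A) =
      ∑ τ : W D, if mp D τ A₀ = A then ((sgn D τ : K) * EV D x y (act D (Fin D.rk) τ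
        (h * (e (wF D) A₀ * zs (wF D) A₀)))) • u (ind D (mp D τ A₀)) else 0 := by
    intro A
    rw [orb, Finset.sum_mul, map_sum, Finset.sum_smul]
    refine Finset.sum_congr rfl fun τ _ => ?_
    split_ifs with hA
    · subst hA
      congr 1
      rw [map_mul (act D (Fin D.rk) τ), map_mul (act D (Fin D.rk) τ), act_e, act_zs,
        mul_assoc, map_mul, map_intCast]
    · rw [zero_mul, map_zero, zero_smul]
  rw [opP, Finset.sum_congr rfl fun A _ => h1 A, Finset.sum_comm, TT]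
  refine Finset.sum_congr rfl fun τ _ => ?_
  rw [Finset.sum_ite_eq Finset.univ (mp D τ A₀), if_pos (Finset.mem_univ _), PadAux.ind_comp, eul_ind]
  rfl

lemma lin_opN_orb (A₀ : Finset (B D)) (h : S D (Fin D.rk)) :
    opN D x y u (orb D (Fin D.rk) A₀ h) = TT D x y u (-ind D A₀) h := by
  classical
  have h1 : ∀ A : Finset (B D), (EV D x y (orb D (Fin D.rk) A₀ h A *
      e (wF D) Aᶜ)) • u (-ind D A) =
      ∑ τ : W D, if mp D τ A₀ = A then ((sgn D τ : K) * EV D x y (act D (Fin D.rk) τ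
        (h * e (wF D) A₀ᶜ))) • u (-ind D (mp D τ A₀)) else 0 := by
    intro A
    rw [orb, Finset.sum_mul, map_sum, Finset.sum_smul]
    refine Finset.sum_congr rfl fun τ _ => ?_
    split_ifs with hA
    · subst hA
      congr 1
      rw [map_mul (act D (Fin D.rk) τ), act_e, mp_compl, mul_assoc, map_mul, map_intCast]
    · rw [zero_mul, map_zero, zero_smul]
  rw [opN, Finset.sum_congr rfl fun A _ => h1 A, Finset.sum_comm, TT]
  refine Finset.sum_congr rfl fun τ _ => ?_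
  have h2 : (-ind D A₀) ∘ (perm D τ).symm = -ind D (mp D τ A₀) := by
    rw [← PadAux.ind_comp]
    rfl
  rw [Finset.sum_ite_eq Finset.univ (mp D τ A₀), if_pos (Finset.mem_univ _), h2, eul_neg_ind]
  rfl

/-- without a subset of type `n` the operators vanish -/
lemma lin_opP_zero {n : D.I → ℕ} {φ : Finset (B D) → S D (Fin D.rk)}
    (hφ : φ ∈ AF D (Fin D.rk) n) (hA : ¬ ∃ A₀ : Finset (B D), typ D A₀ = n) :
    opP D x y u φ = 0 := by
  rw [opP]
  refine Finset.sum_eq_zero fun A _ => ?_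
  rw [hφ.2 A (fun h => hA ⟨A, h⟩), zero_mul, map_zero, zero_smul]

lemma lin_opN_zero {n : D.I → ℕ} {φ : Finset (B D) → S D (Fin D.rk)}
    (hφ : φ ∈ AF D (Fin D.rk) n) (hA : ¬ ∃ A₀ : Finset (B D), typ D A₀ = n) :
    opN D x y u φ = 0 := by
  rw [opN]
  refine Finset.sum_eq_zero fun A _ => ?_
  rw [hφ.2 A (fun h => hA ⟨A, h⟩), zero_mul, map_zero, zero_smul]

lemma lin_wt_ind {A₀ : Finset (B D)} {n : D.I → ℕ} (hA : typ D A₀ = n)
    (h : ∑ i, ν i * (n i : ℤ) ≠ 0) : wt D ν (ind D A₀) ≠ 0 := by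
  rw [PadAux.pwt_chg, PadAux.pchg_ind, hA]
  exact h

/-- all positive operators of type `n` are in `EV del • fixI` -/
def GP (n : D.I → ℕ) : Prop := ∀ φ ∈ AF D (Fin D.rk) n, ∃ c ∈ fixI D x y u ν,
  opP D x y u φ = EV D x y (del D (Fin D.rk)) • c

/-- all negative operators of type `n` are in `EV del • fixI` -/
def GN (n : D.I → ℕ) : Prop := ∀ φ ∈ AF D (Fin D.rk) n, ∃ c ∈ fixI D x y u ν,
  opN D x y u φ = EV D x y (del D (Fin D.rk)) • c

variable (hxy : AlgebraicIndependent ℂ (Sum.elim x y)) (hu : ∀ l l', u (l + l') = u l * u l')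

include hxy in
/-- `pos_mono` (H/Quad.lean), `mono_mem_coulomb`; if there is no subset of type `n`, `φ = 0` -/
theorem opP_coulomb {n : D.I → ℕ} {φ : Finset (B D) → S D (Fin D.rk)}
    (hφ : φ ∈ AF D (Fin D.rk) n) :
    ∃ c ∈ coulomb D x y u, opP D x y u φ = EV D x y (del D (Fin D.rk)) • c := by
  by_cases hA : ∃ A₀ : Finset (B D), typ D A₀ = n
  · obtain ⟨A₀, hA₀⟩ := hA
    obtain ⟨f, hf⟩ := pos_mono D x y u hφ hA₀ hxy
    exact ⟨_, mono_mem_coulomb D x y u (lin_min_ind D A₀) f, hf⟩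
  · exact ⟨0, Subring.zero_mem _, by rw [lin_opP_zero D x y u hφ hA, smul_zero]⟩

include hxy in
theorem opN_coulomb {n : D.I → ℕ} {φ : Finset (B D) → S D (Fin D.rk)}
    (hφ : φ ∈ AF D (Fin D.rk) n) :
    ∃ c ∈ coulomb D x y u, opN D x y u φ = EV D x y (del D (Fin D.rk)) • c := by
  by_cases hA : ∃ A₀ : Finset (B D), typ D A₀ = n
  · obtain ⟨A₀, hA₀⟩ := hA
    obtain ⟨f, hf⟩ := neg_mono D x y u hφ hA₀ hxy
    exact ⟨_, mono_neg_mem_coulomb D x y u (lin_min_ind D A₀) f, hf⟩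
  · exact ⟨0, Subring.zero_mem _, by rw [lin_opN_zero D x y u hφ hA, smul_zero]⟩

include hxy in
/-- `pos_mono`, `mono_mem_fixI`; `wt D ν (ind A₀) = ∑ i, ν i * typ A₀ i` -/
theorem GP_wt {n : D.I → ℕ} (h : ∑ i, ν i * (n i : ℤ) ≠ 0) : GP D x y u ν n := by
  intro φ hφ
  by_cases hA : ∃ A₀ : Finset (B D), typ D A₀ = n
  · obtain ⟨A₀, hA₀⟩ := hA
    obtain ⟨f, hf⟩ := pos_mono D x y u hφ hA₀ hxy
    exact ⟨_, mono_mem_fixI D x y u ν (lin_min_ind D A₀) (lin_wt_ind D ν hA₀ h) f, hf⟩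
  · exact ⟨0, AddSubgroup.zero_mem _, by rw [lin_opP_zero D x y u hφ hA, smul_zero]⟩

include hxy in
theorem GN_wt {n : D.I → ℕ} (h : ∑ i, ν i * (n i : ℤ) ≠ 0) : GN D x y u ν n := by
  intro φ hφ
  by_cases hA : ∃ A₀ : Finset (B D), typ D A₀ = n
  · obtain ⟨A₀, hA₀⟩ := hA
    obtain ⟨f, hf⟩ := neg_mono D x y u hφ hA₀ hxy
    exact ⟨_, mono_neg_mem_fixI D x y u ν (lin_min_ind D A₀) (lin_wt_ind D ν hA₀ h) f, hf⟩
  · exact ⟨0, AddSubgroup.zero_mem _, by rw [lin_opN_zero D x y u hφ hA, smul_zero]⟩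

include hxy in
/-- `mono_TT` and `TT (ind A₀) h = opP (orb A₀ h)` (cf. `Th_slot_pos` in H/Pad.lean), `orb_mem` -/
theorem mono_of_GP {A₀ : Finset (B D)} (h : GP D x y u ν (typ D A₀)) (f : P D) :
    mono D x y u (ind D A₀) f ∈ fixI D x y u ν := by
  have hl : ∀ b b', ind D A₀ b - ind D A₀ b' ≤ 1 := by
    intro b b'
    simp only [ind]
    split_ifs <;> norm_num
  obtain ⟨q, hq⟩ := mono_TT D x y u hxy (ind D A₀) hl f
  obtain ⟨c, hc, hc'⟩ := h _ (orb_mem D (Fin D.rk) A₀ q)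
  have h1 : EV D x y (Del D) ≠ 0 := EV_Del_ne D x y hxy
  have h2 : EV D x y (del D (Fin D.rk)) = EV D x y (Del D) := rfl
  rw [hq, ← lin_opP_orb, hc', h2, smul_smul, inv_mul_cancel₀ h1, one_smul]
  exact hc

include hxy in
theorem mono_of_GN {A₀ : Finset (B D)} (h : GN D x y u ν (typ D A₀)) (f : P D) :
    mono D x y u (-ind D A₀) f ∈ fixI D x y u ν := by
  have hl : ∀ b b', (-ind D A₀) b - (-ind D A₀) b' ≤ 1 := by
    intro b b'
    simp only [ind, Pi.neg_apply]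
    split_ifs <;> norm_num
  obtain ⟨q, hq⟩ := mono_TT D x y u hxy (-ind D A₀) hl f
  obtain ⟨c, hc, hc'⟩ := h _ (orb_mem D (Fin D.rk) A₀ q)
  have h1 : EV D x y (Del D) ≠ 0 := EV_Del_ne D x y hxy
  have h2 : EV D x y (del D (Fin D.rk)) = EV D x y (Del D) := rfl
  rw [hq, ← lin_opN_orb, hc', h2, smul_smul, inv_mul_cancel₀ h1, one_smul]
  exact hc

end Vale.Agent.P291.H.N
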