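import Vale.Agent.P291.N.Ev
import Vale.Agent.P291.M.AFform

set_option autoImplicit false
set_option linter.unusedSectionVars false

/-! Linearity over the invariants. -/

namespace Vale.Agent.P291.H.N

open MvPolynomial Vale.Agent.P291.G Vale.Agent.P291.H.M

variable (D : QData) {K L : Type} [Field K] [Algebra ℂ K] [CommRing L] [Algebra K L]
  (x : B D → K) (y : Fin D.rk → K) (u : Module.Basis (B D → ℤ) K L) (ν : D.I → ℤ)

lemma lint_spec_ps (A : Finset (B D)) (i : D.I) (j : ℕ) :
    spec D (ps D (ZZ D) A i j) = ps D (Fin D.rk) A i j := by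
  rw [ps, ps, map_sum]
  refine Finset.sum_congr rfl fun b _ => ?_
  rw [apply_ite (spec D), map_pow, map_zero, show spec D (xx D (ZZ D) b) = _ from bl_spec_xq D b]

lemma lint_spec_cr (A C : Finset (B D)) :
    spec D (cr D (ZZ D) A C) = cr D (Fin D.rk) A C := by
  rw [cr, cr, map_prod]
  refine Finset.prod_congr rfl fun a _ => ?_
  rw [map_prod]
  refine Finset.prod_congr rfl fun b _ => ?_
  rw [apply_ite (spec D), map_sub, map_one, show spec D (xx D (ZZ D) a) = _ from bl_spec_xq D a,
    show spec D (xx D (ZZ D) b) = _ from bl_spec_xq D b]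

lemma lint_spec_Dl (A : Finset (B D)) : spec D (Dl D (ZZ D) A) = Dl D (Fin D.rk) A := by
  have h1 := congrArg (spec D) (Dl_spec D (ZZ D) A)
  rw [map_mul, lint_spec_cr, bl_spec_del, Dl_spec D (Fin D.rk) A] at h1
  exact (mul_left_cancel₀ (cr_ne_zero D (Fin D.rk) disjoint_compl_right) h1).symm

/-- inclusion of the polynomials -/
noncomputable def lintI : PQ D (Fin D.rk) →ₐ[ℂ] PQ D (ZZ D) :=
  rename (Sum.map id fun j => Sum.inr (Sum.inr j))

lemma lint_evS (A : Finset (B D)) (q : PQ D (Fin D.rk)) :
    spec D (evS D (ZZ D) A (lintI D q)) = evS D (Fin D.rk) A q := by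
  have h : ((spec D).comp ((evS D (ZZ D) A).comp (lintI D))) = evS D (Fin D.rk) A := by
    apply MvPolynomial.algHom_ext
    rintro (⟨i, j⟩ | j)
    · rw [AlgHom.comp_apply, AlgHom.comp_apply, lintI, rename_X, evS, aeval_X, evS, aeval_X]
      exact lint_spec_ps D A i j
    · rw [AlgHom.comp_apply, AlgHom.comp_apply, lintI, rename_X, evS, aeval_X, evS, aeval_X]
      change spec D (X (Sum.inr (Sum.inr (Sum.inr j)))) = X (Sum.inr j)
      rw [spec, aeval_X]
      rfl
  exact DFunLike.congr_fun h q

lemma lint_fam (N : D.I → ℕ) (q : PQ D (Fin D.rk)) :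
    sp D (fam D (ZZ D) N (lintI D q)) = fam D (Fin D.rk) N q := by
  funext A
  rw [sp, fam, fam]
  split_ifs with h
  · rw [map_mul, lint_spec_Dl, lint_evS]
  · rw [map_zero]

lemma lint_R (i : D.I) (j : ℕ) :
    EV D x y (ps D (Fin D.rk) Finset.univ i j) ∈ R D x y := by
  refine ⟨ps D (Fin D.rk) Finset.univ i j, fun σ => ?_⟩
  rw [pol_act]
  congr 1
  have h := act_ps D (Fin D.rk) σ Finset.univ i j
  rw [mp_univ'] at h
  exact h

/-- Linearity. Let `T` be additive and linear over the polynomials. If `T` maps the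
specializations of all `fam N q` to `EV del • fixI` then it maps `AF N` there.
Proof: `AF_form` (M/AFform.lean): `φ A = Dl A * evA (fun _ => A) Q`, `Q : PP D (Fin D.rk) 1`, for
`typ A = N`. Show for all `Q` by `MvPolynomial.induction_on` the statement: for all
`q : PQ D (Fin D.rk)`, `T (fun A => if typ A = N then Dl A * (evS A q * evA (fun _ => A) Q) else 0)`
is in `EV del • fixI`. `Q = C c`: put the constant into `q`; `fam D (ZZ D) N (rename .. q)`
(`Sum.map id fun j => Sum.inr (Sum.inr j)`) specializes to `fam D (Fin D.rk) N q`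
(`bl_spec_..`: `spec` of `Dl` is `Dl`: as in `spec_AF`, or from `Dl_spec` and `bl_spec_del`, and
`spec (xx b) = xx b`). `Q * X v`: if `v` is a slot variable or a flavor, replace `q` by `q * X ..`; if
`v = inr (inl (i, j))`, use `T (r * ·) = EV r • T`, `r = ps univ i j`, `EV r ∈ R D x y` (`act_ps`),
and `fixI_mul`, `R_mem_coulomb`. -/
theorem lin (hxy : AlgebraicIndependent ℂ (Sum.elim x y)) {N : D.I → ℕ}
    {T : (Finset (B D) → S D (Fin D.rk)) → L} (hT1 : ∀ φ ψ, T (φ + ψ) = T φ + T ψ)
    (hT2 : ∀ r φ, T (fun A => r * φ A) = EV D x y r • T φ)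
    (h : ∀ q : PQ D (ZZ D), ∃ c ∈ fixI D x y u ν,
      T (sp D (fam D (ZZ D) N q)) = EV D x y (del D (Fin D.rk)) • c)
    {φ : Finset (B D) → S D (Fin D.rk)} (hφ : φ ∈ AF D (Fin D.rk) N) :
    ∃ c ∈ fixI D x y u ν, T φ = EV D x y (del D (Fin D.rk)) • c := by
  classical
  -- the property is additive and linear over the invariants
  have Gadd : ∀ φ ψ : Finset (B D) → S D (Fin D.rk),
      (∃ c ∈ fixI D x y u ν, T φ = EV D x y (del D (Fin D.rk)) • c) →
      (∃ c ∈ fixI D x y u ν, T ψ = EV D x y (del D (Fin D.rk)) • c) →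
      ∃ c ∈ fixI D x y u ν, T (φ + ψ) = EV D x y (del D (Fin D.rk)) • c := by
    rintro φ ψ ⟨c, hc, h1⟩ ⟨c', hc', h2⟩
    exact ⟨c + c', AddSubgroup.add_mem _ hc hc', by rw [hT1, h1, h2, smul_add]⟩
  have Gmul : ∀ (r : S D (Fin D.rk)) (φ : Finset (B D) → S D (Fin D.rk)),
      EV D x y r ∈ R D x y → (∃ c ∈ fixI D x y u ν, T φ = EV D x y (del D (Fin D.rk)) • c) →
      ∃ c ∈ fixI D x y u ν, T (fun A => r * φ A) = EV D x y (del D (Fin D.rk)) • c := by
    rintro r φ hr ⟨c, hc, h1⟩
    refine ⟨algebraMap K L (EV D x y r) * c, fixI_mul D x y u ν (R_mem_coulomb D x y u hr) hc, ?_⟩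
    rw [hT2, h1, ← Algebra.smul_def, smul_comm]
  have key : ∀ (Q : PP D (Fin D.rk) 1) (q : PQ D (Fin D.rk)), ∃ c ∈ fixI D x y u ν,
      T (fun A => if typ D A = N then Dl D (Fin D.rk) A *
        (evS D (Fin D.rk) A q * evA D (Fin D.rk) (fun _ : Fin 1 => A) Q) else 0) =
      EV D x y (del D (Fin D.rk)) • c := by
    intro Q
    induction Q using MvPolynomial.induction_on with
    | C c =>
      intro q
      have h1 := h (lintI D (q * C c))
      rw [lint_fam] at h1
      have h2 : (fun A => if typ D A = N then Dl D (Fin D.rk) A *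
          (evS D (Fin D.rk) A q * evA D (Fin D.rk) (fun _ : Fin 1 => A) (C c)) else 0) =
          fam D (Fin D.rk) N (q * C c) := by
        funext A
        rw [fam, map_mul]
        have h3 : evA D (Fin D.rk) (fun _ : Fin 1 => A) (C c) =
            evS D (Fin D.rk) A (C c) := by
          rw [evA, evS, aeval_C, aeval_C]
        rw [h3]
      rw [h2]
      exact h1
    | add Q Q' ih ih' =>
      intro q
      have h2 : (fun A => if typ D A = N then Dl D (Fin D.rk) A *
          (evS D (Fin D.rk) A q * evA D (Fin D.rk) (fun _ : Fin 1 => A) (Q + Q')) else 0) =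
          (fun A => if typ D A = N then Dl D (Fin D.rk) A *
          (evS D (Fin D.rk) A q * evA D (Fin D.rk) (fun _ : Fin 1 => A) Q) else 0) +
          (fun A => if typ D A = N then Dl D (Fin D.rk) A *
          (evS D (Fin D.rk) A q * evA D (Fin D.rk) (fun _ : Fin 1 => A) Q') else 0) := by
        funext A
        rw [Pi.add_apply]
        split_ifs with hA
        · rw [map_add, mul_add, mul_add]
        · rw [add_zero]
      rw [h2]
      exact Gadd _ _ (ih q) (ih' q)
    | mul_X Q v ih =>
      intro q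
      rcases v with ⟨t, i, j⟩ | ⟨i, j⟩ | z
      · have h2 : (fun A => if typ D A = N then Dl D (Fin D.rk) A *
            (evS D (Fin D.rk) A q * evA D (Fin D.rk) (fun _ : Fin 1 => A)
              (Q * X (Sum.inl (t, i, j)))) else 0) =
            (fun A => if typ D A = N then Dl D (Fin D.rk) A *
            (evS D (Fin D.rk) A (q * X (Sum.inl (i, j))) *
              evA D (Fin D.rk) (fun _ : Fin 1 => A) Q) else 0) := by
          funext A
          rw [map_mul, map_mul, AFform_evA_inl]
          have h3 : evS D (Fin D.rk) A (X (Sum.inl (i, j))) = ps D (Fin D.rk) A i j := by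
            rw [evS, aeval_X]
            rfl
          rw [h3]
          split_ifs with hA
          · ring
          · rfl
        rw [h2]
        exact ih _
      · have h2 : (fun A => if typ D A = N then Dl D (Fin D.rk) A *
            (evS D (Fin D.rk) A q * evA D (Fin D.rk) (fun _ : Fin 1 => A)
              (Q * X (Sum.inr (Sum.inl (i, j))))) else 0) =
            (fun A => ps D (Fin D.rk) Finset.univ i j *
              (if typ D A = N then Dl D (Fin D.rk) A *
            (evS D (Fin D.rk) A q * evA D (Fin D.rk) (fun _ : Fin 1 => A) Q) else 0)) := by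
          funext A
          rw [map_mul, AFform_evA_tot]
          split_ifs with hA
          · ring
          · rw [mul_zero]
        rw [h2]
        exact Gmul _ _ (lint_R D x y i j) (ih q)
      · have h2 : (fun A => if typ D A = N then Dl D (Fin D.rk) A *
            (evS D (Fin D.rk) A q * evA D (Fin D.rk) (fun _ : Fin 1 => A)
              (Q * X (Sum.inr (Sum.inr z)))) else 0) =
            (fun A => if typ D A = N then Dl D (Fin D.rk) A *
            (evS D (Fin D.rk) A (q * X (Sum.inr z)) *
              evA D (Fin D.rk) (fun _ : Fin 1 => A) Q) else 0) := by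
          funext A
          rw [map_mul, map_mul, AFform_evA_flavor]
          have h3 : evS D (Fin D.rk) A (X (Sum.inr z)) = X (Sum.inr z) := by
            rw [evS, aeval_X]
            rfl
          rw [h3]
          split_ifs with hA
          · ring
          · rfl
        rw [h2]
        exact ih _
  obtain ⟨Q, hQ⟩ := AF_form D (Fin D.rk) hφ
  have h1 := key Q 1
  have h2 : (fun A => if typ D A = N then Dl D (Fin D.rk) A *
      (evS D (Fin D.rk) A 1 * evA D (Fin D.rk) (fun _ : Fin 1 => A) Q) else 0) = φ := by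
    funext A
    split_ifs with hA
    · rw [map_one, one_mul, hQ A hA]
    · exact (hφ.2 A hA).symm
  rwa [h2] at h1

end Vale.Agent.P291.H.N
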