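import Vale.Agent.P291.N.Ev
import Vale.Agent.P291.M.UUform

set_option autoImplicit false
set_option linter.unusedSectionVars false

/-! Values of products of slots. -/

namespace Vale.Agent.P291.H.N

open MvPolynomial Vale.Agent.P291.G Vale.Agent.P291.H.M

variable (D : QData) {K L : Type} [Field K] [Algebra ℂ K] [CommRing L] [Algebra K L]
  (x : B D → K) (y : Fin D.rk → K) (u : Module.Basis (B D → ℤ) K L) (ν : D.I → ℤ)

/-- value of `del` -/
noncomputable def dl0 : K := EV D x y (del D (Fin D.rk))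

/-- all values of the slot space are in `δ • U₀ * coulomb` -/
def SC (w : Wts D (ZZ D)) (E : AddMonoidAlgebra (S D (ZZ D)) (B D → ℤ) →+* L) (U₀ : L) (ε : ℕ)
    (n : D.I → ℕ) : Prop :=
  ∀ φ ∈ AF D (ZZ D) n, ∃ c ∈ coulomb D x y u, E (slot w ε φ) = dl0 D x y • (U₀ * c)

/-- all values of the slot space are in `δ • U₀ * fixI` -/
def SG (w : Wts D (ZZ D)) (E : AddMonoidAlgebra (S D (ZZ D)) (B D → ℤ) →+* L) (U₀ : L) (ε : ℕ)
    (n : D.I → ℕ) : Prop :=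
  ∀ φ ∈ AF D (ZZ D) n, ∃ c ∈ fixI D x y u ν, E (slot w ε φ) = dl0 D x y • (U₀ * c)

section
variable {D x y u ν}

lemma words_C_mem (c : ℂ) : algebraMap K L (algebraMap ℂ K c) ∈ coulomb D x y u := by
  refine R_mem_coulomb D x y u ⟨C c, fun σ => ?_⟩
  rw [pol_eq, EV, aeval_C]

lemma words_prod_coulomb {δ : K} (m : ℕ) (f : ℕ → L)
    (h : ∀ j, j < m → ∃ c ∈ coulomb D x y u, f j = δ • c) :
    ∃ c ∈ coulomb D x y u, ∏ j ∈ Finset.range m, f j = δ ^ m • c := by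
  induction m with
  | zero =>
    exact ⟨1, Subring.one_mem _, by rw [Finset.range_zero, Finset.prod_empty, pow_zero, one_smul]⟩
  | succ m ih =>
    obtain ⟨c, hc, h1⟩ := ih fun j hj => h j (Nat.lt_succ_of_lt hj)
    obtain ⟨d, hd, h2⟩ := h m (Nat.lt_succ_self m)
    refine ⟨c * d, Subring.mul_mem _ hc hd, ?_⟩
    rw [Finset.prod_range_succ, h1, h2, smul_mul_smul_comm, pow_succ]

lemma words_prod_fixI {δ : K} (m : ℕ) (f : ℕ → L)
    (h : ∀ j, j < m → ∃ c ∈ coulomb D x y u, f j = δ • c)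
    (hg : ∃ j, j < m ∧ ∃ c ∈ fixI D x y u ν, f j = δ • c) :
    ∃ c ∈ fixI D x y u ν, ∏ j ∈ Finset.range m, f j = δ ^ m • c := by
  induction m with
  | zero =>
    obtain ⟨j, hj, _⟩ := hg
    exact absurd hj (Nat.not_lt_zero j)
  | succ m ih =>
    obtain ⟨j, hj, d, hd, h2⟩ := hg
    by_cases hjm : j = m
    · subst hjm
      obtain ⟨c, hc, h1⟩ := words_prod_coulomb (δ := δ) j f fun i hi => h i (Nat.lt_succ_of_lt hi)
      refine ⟨c * d, fixI_mul D x y u ν hc hd, ?_⟩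
      rw [Finset.prod_range_succ, h1, h2, smul_mul_smul_comm, pow_succ]
    · obtain ⟨c, hc, h1⟩ := ih (fun i hi => h i (Nat.lt_succ_of_lt hi))
        ⟨j, by omega, d, hd, h2⟩
      obtain ⟨b, hb, h3⟩ := h m (Nat.lt_succ_self m)
      refine ⟨b * c, fixI_mul D x y u ν hb hc, ?_⟩
      rw [Finset.prod_range_succ, h1, h3, smul_mul_smul_comm, pow_succ, mul_comm b c]

end

/-- Proof: `prod_ind` (M/UUform.lean) with the predicate `∃ c ∈ fixI, E X = dl0 ^ m • (U₀ * c)`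
(for the scalars: `C a • ·`; `fixI` and `coulomb` are closed under multiplication with complex
numbers, which are in `R`, `R_mem_coulomb`; `E (c • X) = algebraMap .. * E X` from
`single 0 (C c)`; hypothesis `hE`). A pure product: all factors are in `δ • coulomb` up to `U₀` for the
slot `0`, one of them in `δ • fixI`; `fixI_mul`. -/
theorem words {w : Wts D (ZZ D)} {E : AddMonoidAlgebra (S D (ZZ D)) (B D → ℤ) →+* L} {U₀ : L}
    (hE : ∀ (c : ℂ) X, E (c • X) = algebraMap K L (algebraMap ℂ K c) * E X)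
    {ε : ℕ → ℕ} {m : ℕ} (hm : 1 ≤ m) {n : ℕ → D.I → ℕ}
    (h0 : SC D x y u w E U₀ (ε 0) (n 0))
    (h1 : ∀ j, 1 ≤ j → j < m → SC D x y u w E 1 (ε j) (n j))
    (hg : SG D x y u ν w E U₀ (ε 0) (n 0) ∨
      ∃ j, 1 ≤ j ∧ j < m ∧ SG D x y u ν w E 1 (ε j) (n j))
    {X : AddMonoidAlgebra (S D (ZZ D)) (B D → ℤ)} (hX : X ∈ UU w ε m n) :
    ∃ c ∈ fixI D x y u ν, E X = dl0 D x y ^ m • (U₀ * c) := by
  classical
  obtain ⟨m, rfl⟩ : ∃ m', m = m' + 1 := ⟨m - 1, by omega⟩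
  refine prod_ind (m + 1) (fun j => U w (ε j) (n j))
    (fun X => ∃ c ∈ fixI D x y u ν, E X = dl0 D x y ^ (m + 1) • (U₀ * c)) ?_ ?_ ?_ X hX
  · rintro X Y ⟨c, hc, h⟩ ⟨d, hd, h'⟩
    exact ⟨c + d, AddSubgroup.add_mem _ hc hd, by rw [map_add, h, h', mul_add, smul_add]⟩
  · rintro a X ⟨c, hc, h⟩
    refine ⟨algebraMap K L (algebraMap ℂ K a) * c, fixI_mul D x y u ν (words_C_mem a) hc, ?_⟩
    rw [hE, h, mul_smul_comm, mul_left_comm]
  · intro Y hY
    have h2 : ∀ j, 1 ≤ j → j < m + 1 → ∃ c ∈ coulomb D x y u, E (Y j) = dl0 D x y • c := by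
      intro j hj hjm
      obtain ⟨φ, hφ, h⟩ := hY j hjm
      obtain ⟨c, hc, h'⟩ := h1 j hj hjm φ hφ
      exact ⟨c, hc, by rw [← h, h', one_mul]⟩
    obtain ⟨φ, hφ, h3⟩ := hY 0 (Nat.succ_pos m)
    rw [map_prod, Finset.prod_range_succ']
    rcases hg with hg | ⟨j, hj, hjm, hg⟩
    · obtain ⟨c, hc, h4⟩ := hg φ hφ
      obtain ⟨d, hd, h5⟩ := words_prod_coulomb (D := D) (x := x) (y := y) (u := u)
        (δ := dl0 D x y) m (fun j => E (Y (j + 1))) fun j hj => h2 (j + 1) (by omega) (by omega)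
      refine ⟨d * c, fixI_mul D x y u ν hd hc, ?_⟩
      rw [h5, ← h3, h4, smul_mul_smul_comm, pow_succ, mul_left_comm]
    · obtain ⟨c, hc, h4⟩ := h0 φ hφ
      obtain ⟨d, hd, h5⟩ := words_prod_fixI (D := D) (x := x) (y := y) (u := u) (ν := ν)
        (δ := dl0 D x y) m (fun j => E (Y (j + 1))) (fun j hj => h2 (j + 1) (by omega) (by omega))
        (by
          obtain ⟨ψ, hψ, h⟩ := hY j hjm
          obtain ⟨c, hc, h'⟩ := hg ψ hψ
          refine ⟨j - 1, by omega, c, hc, ?_⟩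
          rw [Nat.sub_add_cancel hj, ← h, h', one_mul])
      refine ⟨c * d, fixI_mul D x y u ν hc hd, ?_⟩
      rw [h5, ← h3, h4, smul_mul_smul_comm, pow_succ, mul_left_comm, mul_comm d c]

/-- Proof: `Submodule.iSup_induction` (or `VV` as a sum) for `VV`, and division by `dl0 ^ (m-1)`;
`E (single 0 (del ^ (m-1))) = dl0 ^ (m-1) • 1` is the hypothesis `hd`. -/
theorem words_VV {w : Wts D (ZZ D)} {E : AddMonoidAlgebra (S D (ZZ D)) (B D → ℤ) →+* L} {U₀ : L}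
    (hxy : AlgebraicIndependent ℂ (Sum.elim x y))
    {ε : ℕ → ℕ} {m : ℕ} (hm : 1 ≤ m) {Pr : (ℕ → D.I → ℕ) → Prop}
    (hd : ∀ k, E (AddMonoidAlgebra.single 0 (del D (ZZ D) ^ k)) = algebraMap K L (dl0 D x y ^ k))
    (hP : ∀ n, Pr n → ∀ X ∈ UU w ε m n, ∃ c ∈ fixI D x y u ν, E X = dl0 D x y ^ m • (U₀ * c))
    {Y : AddMonoidAlgebra (S D (ZZ D)) (B D → ℤ)}
    (hY : Y * AddMonoidAlgebra.single 0 (del D (ZZ D) ^ (m - 1)) ∈ VV w ε m Pr) :
    ∃ c ∈ fixI D x y u ν, E Y = dl0 D x y • (U₀ * c) := by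
  have h0 : dl0 D x y ≠ 0 := by
    rw [dl0, Ne, ← map_zero (EV D x y)]
    exact fun h => del_ne_zero D (Fin D.rk) (EV_inj D x y hxy h)
  have h1 : ∀ X ∈ VV w ε m Pr, ∃ c ∈ fixI D x y u ν, E X = dl0 D x y ^ m • (U₀ * c) := by
    intro X hX
    have hz : ∃ c ∈ fixI D x y u ν,
        E (0 : AddMonoidAlgebra (S D (ZZ D)) (B D → ℤ)) = dl0 D x y ^ m • (U₀ * c) :=
      ⟨0, zero_mem _, by rw [map_zero, mul_zero, smul_zero]⟩
    have ha : ∀ X Y, (∃ c ∈ fixI D x y u ν, E X = dl0 D x y ^ m • (U₀ * c)) →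
        (∃ c ∈ fixI D x y u ν, E Y = dl0 D x y ^ m • (U₀ * c)) →
        ∃ c ∈ fixI D x y u ν, E (X + Y) = dl0 D x y ^ m • (U₀ * c) := by
      rintro X Y ⟨c, hc, hX⟩ ⟨d, hd, hY⟩
      exact ⟨c + d, add_mem hc hd, by rw [map_add, hX, hY, mul_add, smul_add]⟩
    refine Submodule.iSup_induction _ (motive := fun X => ∃ c ∈ fixI D x y u ν,
      E X = dl0 D x y ^ m • (U₀ * c)) hX (fun n X hX => ?_) hz ha
    refine Submodule.iSup_induction _ (motive := fun X => ∃ c ∈ fixI D x y u ν,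
      E X = dl0 D x y ^ m • (U₀ * c)) hX (fun hn X hX => hP n hn X hX) hz ha
  obtain ⟨c, hc, h2⟩ := h1 _ hY
  refine ⟨c, hc, ?_⟩
  rw [map_mul, hd, ← Algebra.commutes, ← Algebra.smul_def] at h2
  have h3 : dl0 D x y ^ m = dl0 D x y ^ (m - 1) * dl0 D x y := by
    rw [← pow_succ, Nat.sub_add_cancel hm]
  rw [h3, mul_smul] at h2
  have h4 := congrArg (fun z : L => (dl0 D x y ^ (m - 1))⁻¹ • z) h2
  rwa [inv_smul_smul₀ (pow_ne_zero _ h0), inv_smul_smul₀ (pow_ne_zero _ h0)] at h4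

end Vale.Agent.P291.H.N
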