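import Vale.Agent.P291.N.Dec
import Vale.Agent.P291.N.Words
import Vale.Agent.P291.N.Lin
import Vale.Agent.P291.N.LinT

set_option autoImplicit false
set_option linter.unusedSectionVars false

/-! The induction: all minuscule operators are in the ideal of a regular character. -/

namespace Vale.Agent.P291.H.N

open MvPolynomial Vale.Agent.P291.G Vale.Agent.P291.H.M

variable (D : QData) (ν : D.I → ℤ)

/-- sums of roots orthogonal to `ν` -/
inductive Sm : (D.I → ℕ) → Prop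
  | zero : Sm 0
  | add (n m : D.I → ℕ) : Sm n → Root D m → m ≠ 0 → ∑ i, ν i * (m i : ℤ) = 0 → Sm (n + m)

/-- regularity in terms of types -/
def HR : Prop := ∀ n₀ m : D.I → ℕ, FrRoot D n₀ → Sm D ν m → n₀ + m = D.v → m = 0

lemma Sm_add {n m : D.I → ℕ} (h : Sm D ν n) (h' : Sm D ν m) : Sm D ν (n + m) := by
  induction h' with
  | zero => rwa [add_zero]
  | add a b _ hb hb0 hw ih =>
    rw [← add_assoc]
    exact Sm.add _ _ ih hb hb0 hw

lemma Sm_wt {n : D.I → ℕ} (h : Sm D ν n) : ∑ i, ν i * (n i : ℤ) = 0 := by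
  induction h with
  | zero => simp
  | add a b _ _ _ hw ih =>
    have h1 : ∑ i, ν i * (((a + b) i : ℕ) : ℤ) =
        ∑ i, ν i * (a i : ℤ) + ∑ i, ν i * (b i : ℤ) := by
      rw [← Finset.sum_add_distrib]
      exact Finset.sum_congr rfl fun i _ => by rw [Pi.add_apply]; push_cast; ring
    rw [h1, ih, hw, add_zero]

lemma Ind_Sm_sum (s : Finset ℕ) (f : ℕ → D.I → ℕ) (h : ∀ j ∈ s, Sm D ν (f j)) :
    Sm D ν (∑ j ∈ s, f j) :=
  Finset.sum_induction f (Sm D ν) (fun _ _ => Sm_add D ν) Sm.zero h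

lemma Ind_sum_lt {n n' : D.I → ℕ} (h : n' ≤ n) (h' : n' ≠ n) : ∑ i, n' i < ∑ i, n i := by
  obtain ⟨i, hi⟩ := Function.ne_iff.1 h'
  exact Finset.sum_lt_sum (fun j _ => h j) ⟨i, Finset.mem_univ i, lt_of_le_of_ne (h i) hi⟩

variable {K L : Type} [Field K] [Algebra ℂ K] [CommRing L] [Algebra K L]
  (x : B D → K) (y : Fin D.rk → K) (u : Module.Basis (B D → ℤ) K L)
  (hxy : AlgebraicIndependent ℂ (Sum.elim x y)) (hu : ∀ l l', u (l + l') = u l * u l')

/-- operators which are linear over the polynomials, with values in the Coulomb branch -/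
structure IndT (T : (Finset (B D) → S D (Fin D.rk)) → L) : Prop where
  add : ∀ φ ψ, T (φ + ψ) = T φ + T ψ
  mul : ∀ r φ, T (fun A => r * φ A) = EV D x y r • T φ
  mem : ∀ (n : D.I → ℕ) φ, φ ∈ AF D (Fin D.rk) n →
    ∃ c ∈ coulomb D x y u, T φ = EV D x y (del D (Fin D.rk)) • c

/-- all values on the families of type `n` are in `EV del • fixI` -/
def IndG (T : (Finset (B D) → S D (Fin D.rk)) → L) (n : D.I → ℕ) : Prop :=
  ∀ φ ∈ AF D (Fin D.rk) n, ∃ c ∈ fixI D x y u ν, T φ = EV D x y (del D (Fin D.rk)) • c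

include hxy in
lemma IndT_P : IndT D x y u (opP D x y u) :=
  ⟨opP_add D x y u, opP_mul D x y u, fun _ _ h => opP_coulomb D x y u hxy h⟩

include hxy in
lemma IndT_N : IndT D x y u (opN D x y u) :=
  ⟨opN_add D x y u, opN_mul D x y u, fun _ _ h => opN_coulomb D x y u hxy h⟩

section
variable {E : AddMonoidAlgebra (S D (ZZ D)) (B D → ℤ) →+* L}

lemma Ind_smul (hE : ∀ s, E (AddMonoidAlgebra.single 0 s) = algebraMap K L (EV D x y (spec D s)))
    (c : ℂ) (X : AddMonoidAlgebra (S D (ZZ D)) (B D → ℤ)) :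
    E (c • X) = algebraMap K L (algebraMap ℂ K c) * E X := by
  have h1 : c • X = AddMonoidAlgebra.single 0 (algebraMap ℂ (S D (ZZ D)) c) * X :=
    Algebra.smul_def c X
  rw [h1, map_mul, hE, AlgHom.commutes, AlgHom.commutes]

lemma Ind_del (hE : ∀ s, E (AddMonoidAlgebra.single 0 s) = algebraMap K L (EV D x y (spec D s)))
    (k : ℕ) : E (AddMonoidAlgebra.single 0 (del D (ZZ D) ^ k)) =
      algebraMap K L (dl0 D x y ^ k) := by
  rw [hE, map_pow, bl_spec_del, map_pow]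
  rfl

lemma Ind_words1 {w : Wts D (ZZ D)}
    (hE : ∀ s, E (AddMonoidAlgebra.single 0 s) = algebraMap K L (EV D x y (spec D s)))
    {T : (Finset (B D) → S D (Fin D.rk)) → L} (hT : IndT D x y u T)
    (h0 : ∀ φ, E (slot w 0 φ) = T (sp D φ)) {n : D.I → ℕ} (hS : ¬ Sm D ν n)
    (ih : ∀ n', n' ≤ n → n' ≠ n → ¬ Sm D ν n' → IndG D ν x y u T n') {m : ℕ} (hm : 1 ≤ m)
    (n' : ℕ → D.I → ℕ) (hn' : ntU D n m n') (X : AddMonoidAlgebra (S D (ZZ D)) (B D → ℤ))
    (hX : X ∈ UU w e0 m n') :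
    ∃ c ∈ fixI D x y u ν, E X = dl0 D x y ^ m • ((1 : L) * c) := by
  have hex : ∃ j, j < m ∧ ¬ Sm D ν (n' j) := by
    by_contra hcon
    refine hS ?_
    rw [← hn'.1.2]
    refine Ind_Sm_sum D ν _ _ fun j hj => ?_
    by_contra hj'
    exact hcon ⟨j, Finset.mem_range.1 hj, hj'⟩
  obtain ⟨j, hj, hj'⟩ := hex
  have hle : n' j ≤ n := by
    rw [← hn'.1.2]
    exact Finset.single_le_sum (f := n') (fun _ _ _ => Nat.zero_le _) (Finset.mem_range.2 hj)
  have hsc : ∀ i, SC D x y u w E 1 0 (n' i) := fun i ψ hψ => by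
    obtain ⟨c, hc, h⟩ := hT.mem _ _ (spec_AF D hψ)
    refine ⟨c, hc, ?_⟩
    rw [h0, one_mul]
    exact h
  have hsg : SG D x y u ν w E 1 0 (n' j) := fun ψ hψ => by
    obtain ⟨c, hc, h⟩ := ih _ hle (hn'.2 j) hj' _ (spec_AF D hψ)
    refine ⟨c, hc, ?_⟩
    rw [h0, one_mul]
    exact h
  refine words D x y u ν (w := w) (E := E) (U₀ := 1) (ε := e0) (n := n') (Ind_smul D x y hE) hm
    (hsc 0) (fun i _ _ => hsc i) ?_ hX
  rcases Nat.eq_zero_or_pos j with rfl | hj0
  · exact Or.inl hsg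
  · exact Or.inr ⟨j, hj0, hj, hsg⟩

include hxy in
lemma Ind_core1 {w : Wts D (ZZ D)} (hw : w = wX D ∨ w = opW (wX D))
    (hE : ∀ s, E (AddMonoidAlgebra.single 0 s) = algebraMap K L (EV D x y (spec D s)))
    {T : (Finset (B D) → S D (Fin D.rk)) → L} (hT : IndT D x y u T)
    (h0 : ∀ φ, E (slot w 0 φ) = T (sp D φ)) {n : D.I → ℕ} (hn : ¬ Root D n) (hS : ¬ Sm D ν n)
    (ih : ∀ n', n' ≤ n → n' ≠ n → ¬ Sm D ν n' → IndG D ν x y u T n') :
    IndG D ν x y u T n := by
  obtain ⟨m, hm, hdec⟩ := decU D n hn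
  intro φ hφ
  refine lin D x y u ν hxy hT.add hT.mul (fun q => ?_) hφ
  obtain ⟨c, hc, h⟩ := words_VV D x y u ν (w := w) (E := E) (U₀ := 1) hxy (ε := e0) hm
    (Pr := ntU D n m) (Ind_del D x y hE) (Ind_words1 D ν x y u hE hT h0 hS ih hm) (hdec w hw q)
  refine ⟨c, hc, ?_⟩
  rw [h0, one_mul] at h
  exact h

include hxy in
lemma Ind_core2 {w : Wts D (ZZ D)} (hw : w = wX D ∨ w = opW (wX D))
    (hE : ∀ s, E (AddMonoidAlgebra.single 0 s) = algebraMap K L (EV D x y (spec D s)))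
    {U₀ U₁ : L} (hU : U₁ * U₀ = 1) {T₀ T₁ : (Finset (B D) → S D (Fin D.rk)) → L}
    (hT₀ : IndT D x y u T₀) (hT₁ : IndT D x y u T₁)
    (h0 : ∀ φ, E (slot w 0 φ) = U₀ * T₀ (sp D fun C => φ Cᶜ))
    (h1 : ∀ φ, E (slot w 1 φ) = T₁ (sp D φ)) {k n : D.I → ℕ} (hk : k + n = D.v)
    (hfr : ¬ FrRoot D k)
    (ih1 : ∀ n', n' ≠ 0 → ¬ Sm D ν n' → IndG D ν x y u T₁ n')
    (ih2 : ∀ k' s, k' + s = k → s ≠ 0 → Sm D ν s → IndG D ν x y u T₀ (s + n)) :
    IndG D ν x y u T₀ n := by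
  obtain ⟨m, hm, hdec⟩ := decF D k hfr
  have e0' : ep 1 0 = 0 := rfl
  have e1' : ∀ j, 1 ≤ j → ep 1 j = 1 := fun j hj => if_neg (by omega)
  have hkv : k ≤ D.v := by rw [← hk]; exact le_self_add
  have key : ∀ φ ∈ AF D (Fin D.rk) k, ∃ c ∈ fixI D x y u ν,
      (fun φ : Finset (B D) → S D (Fin D.rk) => T₀ fun C => φ Cᶜ) φ =
        EV D x y (del D (Fin D.rk)) • c := by
    intro φ hφ
    refine lin D x y u ν hxy (T := fun φ => T₀ fun C => φ Cᶜ)
      (fun φ ψ => hT₀.add (fun C => φ Cᶜ) (fun C => ψ Cᶜ))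
      (fun r φ => hT₀.mul r (fun C => φ Cᶜ)) (fun q => ?_) hφ
    obtain ⟨c, hc, h⟩ := words_VV D x y u ν (w := w) (E := E) (U₀ := U₀) hxy (ε := ep 1) hm
      (Pr := ntF D k m) (Ind_del D x y hE) (fun n' hn' X hX => by
        have hs := Finset.add_sum_erase (Finset.range m) n' (Finset.mem_range.2 hm)
        rw [hn'.1.2] at hs
        have hle : n' 0 ≤ k := by rw [← hs]; exact le_self_add
        have hsc0 : SC D x y u w E U₀ (ep 1 0) (n' 0) := fun ψ hψ => by
          obtain ⟨c, hc, h⟩ := hT₀.mem _ _ (spec_AF D (compl_mem D (hle.trans hkv) hψ))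
          refine ⟨c, hc, ?_⟩
          rw [e0', h0, ← mul_smul_comm]
          exact congrArg (U₀ * ·) h
        have hsc1 : ∀ j, 1 ≤ j → j < m → SC D x y u w E 1 (ep 1 j) (n' j) := fun j hj _ ψ hψ => by
          obtain ⟨c, hc, h⟩ := hT₁.mem _ _ (spec_AF D hψ)
          exact ⟨c, hc, by rw [e1' j hj, h1, one_mul]; exact h⟩
        refine words D x y u ν (w := w) (E := E) (U₀ := U₀) (ε := ep 1) (n := n')
          (Ind_smul D x y hE) hm hsc0 hsc1 ?_ hX
        by_cases hex : ∃ j, 1 ≤ j ∧ j < m ∧ ¬ Sm D ν (n' j)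
        · obtain ⟨j, hj, hjm, hj'⟩ := hex
          refine Or.inr ⟨j, hj, hjm, fun ψ hψ => ?_⟩
          obtain ⟨c, hc, h⟩ := ih1 (n' j) (fun h4 => hj' (h4 ▸ Sm.zero)) hj' _ (spec_AF D hψ)
          exact ⟨c, hc, by rw [e1' j hj, h1, one_mul]; exact h⟩
        · refine Or.inl fun ψ hψ => ?_
          have hS : Sm D ν (∑ j ∈ (Finset.range m).erase 0, n' j) :=
            Ind_Sm_sum D ν _ _ fun j hj => by
              by_contra hj'
              rw [Finset.mem_erase, Finset.mem_range] at hj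
              exact hex ⟨j, Nat.one_le_iff_ne_zero.2 hj.1, hj.2, hj'⟩
          have hs0 : ∑ j ∈ (Finset.range m).erase 0, n' j ≠ 0 := fun h4 =>
            hn'.2 (by rw [h4, add_zero] at hs; exact hs)
          have h5 : D.v - n' 0 = ∑ j ∈ (Finset.range m).erase 0, n' j + n := by
            rw [← hk, ← hs, add_assoc, add_tsub_cancel_left]
          have h6 := compl_mem D (hle.trans hkv) hψ
          rw [h5] at h6
          obtain ⟨c, hc, h⟩ := ih2 (n' 0) _ hs hs0 hS _ (spec_AF D h6)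
          refine ⟨c, hc, ?_⟩
          rw [e0', h0, ← mul_smul_comm]
          exact congrArg (U₀ * ·) h) (hdec w hw q)
    refine ⟨c, hc, ?_⟩
    rw [h0] at h
    have h3 := congrArg (U₁ * ·) h
    simp only [mul_smul_comm, ← mul_assoc, hU, one_mul] at h3
    exact h3
  intro ψ hψ
  have hnv : n ≤ D.v := by rw [← hk]; exact le_add_self
  have h4 := compl_mem D hnv hψ
  have h5 : D.v - n = k := by rw [← hk, add_tsub_cancel_right]
  rw [h5] at h4
  obtain ⟨c, hc, h⟩ := key _ h4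
  refine ⟨c, hc, ?_⟩
  simpa only [compl_compl] using h

end

include hxy hu in
/-- Proof: strong induction on `∑ i, n i`. If the `ν`-weight is not `0`: `GP_wt`, `GN_wt`. Otherwise
`n` is not a root (else `Sm n`), `decU`. For `GP`: `w = wX D`, `E = Ev U3` (`ev3_zero`); for a
sequence with `ntU D n m n'` some `n' j` (`j < m`) is not `Sm` (else `n` is, by `Sm_add`), it is not
`0`, `≠ n`, `≤ n`, so `GP (n' j)` by induction: `words` (`U₀ = 1`; `SC` from `opP_coulomb`, `spec_AF`),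
`words_VV`, `ev3_zero`, and `lin` with `T = opP`. For `GN`: `w = opW (wX D)`, `Ev U4`. -/
theorem ind1 (n : D.I → ℕ) (h0 : n ≠ 0) (h : ¬ Sm D ν n) :
    GP D x y u ν n ∧ GN D x y u ν n := by
  obtain ⟨M, hM⟩ : ∃ M, ∑ i, n i < M := ⟨_, Nat.lt_succ_self _⟩
  induction M generalizing n with
  | zero => omega
  | succ M ihM =>
    by_cases hw : ∑ i, ν i * (n i : ℤ) = 0
    · have hr : ¬ Root D n := fun hr => h (by
        have h1 := Sm.add 0 n Sm.zero hr h0 hw
        rwa [zero_add] at h1)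
      have ih : ∀ n', n' ≤ n → n' ≠ n → ¬ Sm D ν n' → GP D x y u ν n' ∧ GN D x y u ν n' :=
        fun n' h1 h2 h3 => ihM n' (fun h4 => h3 (h4 ▸ Sm.zero)) h3
          (lt_of_lt_of_le (Ind_sum_lt D h1 h2) (Nat.le_of_lt_succ hM))
      refine ⟨Ind_core1 D ν x y u hxy (Or.inl rfl) (fun s => ?_) (IndT_P D x y u hxy)
          (ev3_zero D x y u hxy hu) hr h (fun n' h1 h2 h3 => (ih n' h1 h2 h3).1),
        Ind_core1 D ν x y u hxy (Or.inr rfl) (fun s => ?_) (IndT_N D x y u hxy)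
          (ev4_zero D x y u hu) hr h (fun n' h1 h2 h3 => (ih n' h1 h2 h3).2)⟩
      · rw [Ev_single, U3_zero D x y u hxy hu, Algebra.smul_def, mul_one]
      · rw [Ev_single, U4_zero D u hu, Algebra.smul_def, mul_one]
    · exact ⟨GP_wt D x y u ν hxy hw, GN_wt D x y u ν hxy hw⟩

include hxy hu in
/-- Proof: induction on `∑ i, k i`, where `k + n = v`. By `h`, `k` is not a `FrRoot` (`Sm 0`), `decF`.
For `GN n`: `w = wX D`, `E = Ev U1`, `U₀ = U1 (ind univ)`, `T = fun φ => opN (fun C => φ Cᶜ)`,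
`N = k`. For a sequence `n'` with `ntF D k m n'`: if some `n' j`, `1 ≤ j < m`, is not `Sm`, it has `GP`
by `ind1`. Otherwise `s = ∑ j ∈ range m \ {0}, n' j` is `Sm`, `s ≠ 0` (`n' 0 ≠ k`), and
`n' 0 + (s + n) = v`: the induction hypothesis for `k' = n' 0` and `s + n` (of weight `0` by
`Sm_wt`) gives `GN (s + n)`, and `SG` for the slot `0` by `ev1_zero` and `compl_mem`
(`v - n' 0 = s + n`). Then `words`, `words_VV`, divide by the unit `U1 (ind univ)`, `lin`; every
alternating family of type `n` is `fun C => φ Cᶜ` with `φ` of type `k`. For `GP n`: `w = opW (wX D)`,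
`Ev U2`, exchange the roles. -/
theorem ind2 (k n : D.I → ℕ) (hk : k + n = D.v) (h0 : n ≠ 0) (hn : ∑ i, ν i * (n i : ℤ) = 0)
    (h : ∀ n₀ m : D.I → ℕ, FrRoot D n₀ → Sm D ν m → n₀ + m ≠ k) :
    GP D x y u ν n ∧ GN D x y u ν n := by
  obtain ⟨M, hM⟩ : ∃ M, ∑ i, k i < M := ⟨_, Nat.lt_succ_self _⟩
  induction M generalizing k n with
  | zero => omega
  | succ M ihM =>
    have hfr : ¬ FrRoot D k := fun hr => h k 0 hr Sm.zero (add_zero k)
    have ih2 : ∀ k' s, k' + s = k → s ≠ 0 → Sm D ν s →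
        GP D x y u ν (s + n) ∧ GN D x y u ν (s + n) := by
      intro k' s hks hs hS
      refine ihM k' (s + n) (by rw [← add_assoc, hks, hk]) (fun h5 => h0 ?_) ?_
        (fun n₀ m hf hm he => h n₀ (m + s) hf (Sm_add D ν hm hS) (by rw [← add_assoc, he, hks])) ?_
      · funext i
        have h6 := congrFun h5 i
        rw [Pi.add_apply, Pi.zero_apply] at h6
        rw [Pi.zero_apply]
        omega
      · have h1 : ∑ i, ν i * (((s + n) i : ℕ) : ℤ) =
            ∑ i, ν i * (s i : ℤ) + ∑ i, ν i * (n i : ℤ) := by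
          rw [← Finset.sum_add_distrib]
          exact Finset.sum_congr rfl fun i _ => by rw [Pi.add_apply]; push_cast; ring
        rw [h1, Sm_wt D ν hS, hn, add_zero]
      · refine lt_of_lt_of_le (Ind_sum_lt D (by rw [← hks]; exact le_self_add)
          (fun h5 => hs ?_)) (Nat.le_of_lt_succ hM)
        rw [h5] at hks
        exact add_eq_left.1 hks
    refine ⟨Ind_core2 D ν x y u hxy (Or.inr rfl) (fun s => ?_)
        (U₁ := U2 D x y u (-ind D Finset.univ)) ?_ (IndT_P D x y u hxy) (IndT_N D x y u hxy)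
        (ev2_zero D x y u hxy hu) (ev2_one D x y u hxy hu) hk hfr
        (fun n' h1 h2 => (ind1 D ν x y u hxy hu n' h1 h2).2)
        (fun k' s h1 h2 h3 => (ih2 k' s h1 h2 h3).1),
      Ind_core2 D ν x y u hxy (Or.inl rfl) (fun s => ?_)
        (U₁ := U1 D u (-ind D Finset.univ)) ?_ (IndT_N D x y u hxy) (IndT_P D x y u hxy)
        (ev1_zero D x y u hu) (ev1_one D x y u hu) hk hfr
        (fun n' h1 h2 => (ind1 D ν x y u hxy hu n' h1 h2).1)
        (fun k' s h1 h2 h3 => (ih2 k' s h1 h2 h3).2)⟩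
    · rw [Ev_single, U2_zero D x y u hxy hu, Algebra.smul_def, mul_one]
    · rw [← U2_add D x y u hxy hu, neg_add_cancel, U2_zero D x y u hxy hu]
    · rw [Ev_single, U1_zero D u hu, Algebra.smul_def, mul_one]
    · rw [← U1_add D u hu, neg_add_cancel, U1_zero D u hu]

include hxy hu in
theorem all_mem (hR : HR D ν) {A : Finset (B D)} (hA : A.Nonempty) (f : P D) :
    mono D x y u (ind D A) f ∈ fixI D x y u ν ∧ mono D x y u (-ind D A) f ∈ fixI D x y u ν := by
  have h0 : typ D A ≠ 0 := fun h => hA.ne_empty (typ_eq_zero D h)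
  have key : GP D x y u ν (typ D A) ∧ GN D x y u ν (typ D A) := by
    by_cases h : Sm D ν (typ D A)
    · refine ind2 D ν x y u hxy hu (D.v - typ D A) (typ D A) (tsub_add_cancel_of_le (typ_le D A))
        h0 (Sm_wt D ν h) fun n₀ m h1 h2 h3 => h0 ?_
      have h4 := hR n₀ (m + typ D A) h1 (Sm_add D ν h2 h)
        (by rw [← add_assoc, h3, tsub_add_cancel_of_le (typ_le D A)])
      funext i
      have h5 := congrFun h4 i
      simp only [Pi.add_apply, Pi.zero_apply] at h5 ⊢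
      omega
    · exact ind1 D ν x y u hxy hu _ h0 h
  exact ⟨mono_of_GP D x y u ν hxy key.1 f, mono_of_GN D x y u ν hxy key.2 f⟩

end Vale.Agent.P291.H.N
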