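import Vale.Agent.P291.N.Defs
import Vale.Agent.P291.M.ZD

set_option autoImplicit false
set_option linter.unusedSectionVars false

/-! The zero-diagonal theorem, general version: any monotone `ε` and any class `Pr` of sequences of
types which contains the nested sequences of nonzero measure. -/

namespace Vale.Agent.P291.H.N

open MvPolynomial Vale.Agent.P291.G Vale.Agent.P291.H.M

variable {D : QData} {Z : Type} (w : Wts D Z)

/-- straightening for a general monotone `ε` (same proof as `strAll` in M/StrAll.lean, with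
`ep 1` replaced by `ε`) -/
theorem strG {ε : ℕ → ℕ} (hε : ∀ j, ε j ≤ ε (j + 1)) {m : ℕ} (n : ℕ → D.I → ℕ) (h : tot D m n) :
    UU w ε m n ≤ ⨆ n' : ℕ → D.I → ℕ, ⨆ _ : seqM D m (meas m n) n', UU w ε m n' := by
  induction hk : meas m n using Nat.strong_induction_on generalizing n with
  | _ k ih =>
    subst hk
    by_cases hne : ∀ j, n (j + 1) ≤ n j
    · exact le_iSup₂_of_le n ⟨h, hne, le_rfl⟩ le_rfl
    · push Not at hne
      obtain ⟨i, hi⟩ := hne
      have him : i + 1 < m := by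
        by_contra hc
        apply hi
        rw [h.1 (i + 1) (by omega)]
        exact fun k => Nat.zero_le _
      have hupd : Function.update (Function.update n i (n i)) (i + 1) (n (i + 1)) = n := by
        rw [Function.update_eq_self, Function.update_eq_self]
      have key : U w (ε i) (n i) * U w (ε (i + 1)) (n (i + 1)) ≤
          (⨆ n' : ℕ → D.I → ℕ, ⨆ _ : seqM D m (meas m n) n', UU w ε m n') /
            ∏ j ∈ ((Finset.range m).erase i).erase (i + 1), U w (ε j) (n j) := by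
        refine pair_mul w (hε i) (n i) (n (i + 1)) _ fun n1' s hs1 hs2 hs3 hs4 => ?_
        rw [Submodule.le_div_iff_mul_le, ← UU_update w ε m n i him n1' s]
        have hsne : s ≠ n (i + 1) := fun h => hi (h ▸ hs1)
        have hlt : ∑ k, s k < ∑ k, n (i + 1) k := by
          refine lt_of_le_of_ne (Finset.sum_le_sum fun k _ => hs2 k) fun he => hsne ?_
          funext k
          exact (Finset.sum_eq_sum_iff_of_le fun k _ => hs2 k).1 he k (Finset.mem_univ k)
        have hmeas := meas_update m n i him n1' s hs4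
        have hmlt : meas m (Function.update (Function.update n i n1') (i + 1) s) <
            meas m n := by omega
        refine (ih _ hmlt _ (tot_update h i him n1' s hs4) rfl).trans ?_
        refine iSup_mono fun n' => iSup_mono' fun h' => ⟨?_, le_rfl⟩
        exact ⟨h'.1, h'.2.1, h'.2.2.trans hmlt.le⟩
      rw [Submodule.le_div_iff_mul_le, ← UU_update w ε m n i him, hupd] at key
      exact key

/-- one type (see `zd_type`) -/
theorem zdg_type {ε : ℕ → ℕ} (hε : ∀ j, ε j ≤ ε (j + 1)) {m M : ℕ} (hm : 1 ≤ m)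
    (Pr : (ℕ → D.I → ℕ) → Prop)
    (hP2 : ∀ n, tot D m n → (∀ j, n (j + 1) ≤ n j) → meas m n ≠ 0 → Pr n)
    {n : ℕ → D.I → ℕ} (hn : seqM D m (M + 1) n)
    (hM : meas m n = M + 1) {C : ℕ → Finset (B D)} (hC : ∀ j, C (j + 1) ⊆ C j)
    (ht : ∀ j, typ D (C j) = n j) {ι : B D → B D} {g₀ : B D → Fin m} (hio : Io C ι g₀)
    {Q : PP D Z m} (h : kp D Z ι (evA D Z (fun t : Fin m => C t) Q) = 0) :
    ∃ Y ∈ VV w ε m Pr, Y.coeff (ind D Finset.univ) = 0 ∧
      XQ w ε n Q - Y ∈ ⨆ n' : ℕ → D.I → ℕ, ⨆ _ : seqM D m M n', UU w ε m n' := by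
  classical
  refine ⟨XQ w ε n (Q - th D Z m Q), ?_, ?_, ?_⟩
  · have hok : Pr n := hP2 n hn.1 hn.2.1 (by omega)
    exact (le_iSup₂_of_le (f := fun (n : ℕ → D.I → ℕ) (_ : Pr n) => UU w ε m n)
      n hok le_rfl) (XQ_mem w ε hm n _)
  · rw [coeff_XQ]
    refine Finset.sum_eq_zero fun g _ => ?_
    split_ifs
    · rw [map_sub, th_fb, sub_self, zero_mul]
    · rfl
  · rw [XQ_sub, sub_sub_cancel]
    have h1 : evA D Z (fun t : Fin m => C t) (th D Z m Q) = 0 := by
      rw [← th_C hC hio, h]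
    have h2 := XQ_mem_Gr w ε hm n C (fun j _ => ht j) (th D Z m Q)
    rw [h1, zero_mul] at h2
    refine chain w m ε n C (fun j => hε j) (fun j _ => hC j) (fun j _ => ht j) _ ?_ _ h2
    intro i δ hi hδ hle
    obtain ⟨h3, h4⟩ := ZDstep_move hn.1 hM i hi δ hδ hle
    refine (strG w hε _ h3).trans ?_
    refine iSup_mono fun n' => iSup_mono' fun h' => ⟨⟨h'.1, h'.2.1, h'.2.2.trans h4⟩, le_rfl⟩

/-- elements of the sum as finite sums (see `exists_sum`) -/
theorem zdg_exists_sum (ε : ℕ → ℕ) {m M : ℕ} {X : AddMonoidAlgebra (S D Z) (B D → ℤ)}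
    (hX : X ∈ ⨆ n : ℕ → D.I → ℕ, ⨆ _ : seqM D m M n, UU w ε m n) :
    ∃ (s : Finset (ℕ → D.I → ℕ)) (Q : (ℕ → D.I → ℕ) → PP D Z m), (∀ n ∈ s, seqM D m M n) ∧
      X = ∑ n ∈ s, XQ w ε n (Q n) := by
  classical
  rw [Submodule.mem_iSup_iff_exists_finsupp] at hX
  obtain ⟨f, hf, hs⟩ := hX
  have h1 : ∀ n ∈ f.support, seqM D m M n := by
    intro n hn
    by_contra h
    have h2 := hf n
    rw [iSup_neg h, Submodule.mem_bot] at h2
    exact Finsupp.mem_support_iff.1 hn h2
  have h2 : ∀ n, ∃ Q : PP D Z m, n ∈ f.support → f n = XQ w ε n Q := by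
    intro n
    by_cases hn : n ∈ f.support
    · have h3 := hf n
      rw [iSup_pos (h1 n hn)] at h3
      obtain ⟨Q, hQ⟩ := exists_XQ w ε m n h3
      exact ⟨Q, fun _ => hQ⟩
    · exact ⟨0, fun h => absurd h hn⟩
  choose Q hQ using h2
  refine ⟨f.support, Q, h1, ?_⟩
  rw [← hs]
  exact Finset.sum_congr rfl fun n hn => hQ n hn

lemma zdg_seqM_mono (ε : ℕ → ℕ) {m M M' : ℕ} (h : M ≤ M') :
    (⨆ n : ℕ → D.I → ℕ, ⨆ _ : seqM D m M n, UU w ε m n) ≤
      ⨆ n : ℕ → D.I → ℕ, ⨆ _ : seqM D m M' n, UU w ε m n := by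
  refine iSup_mono fun n => iSup_mono' fun h' => ⟨?_, le_rfl⟩
  exact ⟨h'.1, h'.2.1, h'.2.2.trans h⟩

/-- measure `0` (see `zd_zero`) -/
theorem zdg_zero (ε : ℕ → ℕ) {m : ℕ} (hm : 1 ≤ m) {X : AddMonoidAlgebra (S D Z) (B D → ℤ)}
    (hX : X ∈ ⨆ n : ℕ → D.I → ℕ, ⨆ _ : seqM D m 0 n, UU w ε m n) :
    X = AddMonoidAlgebra.single (ind D Finset.univ) (X.coeff (ind D Finset.univ)) := by
  have h1 : ∀ l : B D → ℤ, l ≠ ind D Finset.univ → X.coeff l = 0 := by
    intro l hl
    have h2 : (⨆ n : ℕ → D.I → ℕ, ⨆ _ : seqM D m 0 n, UU w ε m n) ≤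
        coeffKer (D := D) (Z := Z) l := by
      refine iSup_le fun n => iSup_le fun hn => fun Y hY => ?_
      rw [mem_coeffKer]
      by_contra hY0
      obtain ⟨A, hA, hlA⟩ := coeff_ne w ε m n hY hY0
      have h3 := ZD_zero_of_meas hn.1 (Nat.le_zero.1 hn.2.2)
      refine hl ?_
      rw [hlA, Finset.sum_eq_single 0]
      · have h4 : typ D (A 0) = typ D Finset.univ := by
          rw [hA 0 (by omega), typ_univ]
          have h5 := hn.1.2
          rw [Finset.sum_eq_single 0] at h5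
          · exact h5
          · intro j _ hj
            exact h3 j (by omega)
          · intro h6
            exact absurd (Finset.mem_range.2 (by omega : 0 < m)) h6
        rw [eq_of_subset D (Finset.subset_univ _) h4]
      · intro j hj hj0
        have h4 : A j = ∅ := by
          apply typ_eq_zero
          rw [hA j (Finset.mem_range.1 hj), h3 j (by omega)]
        rw [h4]
        funext b
        exact if_neg (Finset.notMem_empty b)
      · intro h6
        exact absurd (Finset.mem_range.2 (by omega : 0 < m)) h6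
    exact mem_coeffKer.1 (h2 hX)
  apply AddMonoidAlgebra.coeff_injective
  ext1 l
  rw [AddMonoidAlgebra.coeff_single, Finsupp.single_apply]
  by_cases hl : ind D Finset.univ = l
  · rw [if_pos hl, hl]
  · rw [if_neg hl]
    exact h1 l (Ne.symm hl)

/-- one step (see `zd_step`) -/
theorem zdg_step (hw : NV w) {ε : ℕ → ℕ} (hε : ∀ j, ε j ≤ ε (j + 1)) {m M : ℕ} (hm : 1 ≤ m)
    (Pr : (ℕ → D.I → ℕ) → Prop)
    (hP2 : ∀ n, tot D m n → (∀ j, n (j + 1) ≤ n j) → meas m n ≠ 0 → Pr n)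
    {X : AddMonoidAlgebra (S D Z) (B D → ℤ)}
    (hX : X ∈ ⨆ n : ℕ → D.I → ℕ, ⨆ _ : seqM D m (M + 1) n, UU w ε m n) {c : S D Z}
    (hc : X.coeff (ind D Finset.univ) = c * del D Z ^ m) :
    ∃ Y ∈ VV w ε m Pr, Y.coeff (ind D Finset.univ) = 0 ∧
      X - Y ∈ ⨆ n : ℕ → D.I → ℕ, ⨆ _ : seqM D m M n, UU w ε m n := by
  classical
  obtain ⟨s, Q, hs, hXs⟩ := zdg_exists_sum w ε hX
  have hsum : c * ddT D Z = ∑ n ∈ s, ee w ε n (Q n) := by
    refine mul_left_cancel₀ (pow_ne_zero m (del_ne_zero D Z)) ?_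
    rw [Finset.mul_sum, ← Finset.sum_congr rfl fun n _ => diag w ε n (Q n),
      ← Finset.sum_mul, ← mul_assoc, mul_comm (del D Z ^ m) c, ← hc, hXs,
      AddMonoidAlgebra.coeff_sum, Finsupp.finsetSum_apply]
  have key : ∀ n ∈ s, ∃ Y ∈ VV w ε m Pr, Y.coeff (ind D Finset.univ) = 0 ∧
      XQ w ε n (Q n) - Y ∈
        ⨆ n' : ℕ → D.I → ℕ, ⨆ _ : seqM D m M n', UU w ε m n' := by
    intro n hn
    have hnM := hs n hn
    by_cases hM : meas m n = M + 1
    · obtain ⟨C, hC, ht⟩ := exists_chain n hnM.2.1 (ZD_le_v hnM.1 0)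
      have hv : ∑ j ∈ Finset.range m, typ D (C j) = D.v := by
        rw [← hnM.1.2]
        exact Finset.sum_congr rfl fun j _ => ht j
      obtain ⟨ι, g₀, hio⟩ := exists_io D hm C hC hv
      obtain ⟨b, hb⟩ : ∃ b, b ∉ C 0 := by
        by_contra hne
        push Not at hne
        have h1 : C 0 = Finset.univ := Finset.eq_univ_iff_forall.2 hne
        have h2 : n 0 = D.v := by rw [← ht 0, h1, typ_univ]
        have h3 := ZD_meas_zero (m := m) (ZD_eq_seqT hm hnM.1 h2)
        omega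
      have h1 := congrArg (kp D Z ι) hsum
      rw [map_mul, ZD_kp_ddT hC hio hb, mul_zero, map_sum, Finset.sum_eq_single n] at h1
      · exact zdg_type w hε hm Pr hP2 hnM hM hC ht hio
          (kv_top w hw hC hio ht ε (Q n) h1.symm)
      · intro n' hn' hne
        refine kv_zero w hC hio ht ?_ ?_ ε (Q n')
        · rw [hM]
          exact (hs n' hn').2.2
        · by_contra h2
          push Not at h2
          apply hne
          funext j
          by_cases hj : j < m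
          · exact h2 j hj
          · rw [(hs n' hn').1.1 j (by omega), hnM.1.1 j (by omega)]
      · intro h2
        exact absurd hn h2
    · refine ⟨0, Submodule.zero_mem _, ?_, ?_⟩
      · rw [AddMonoidAlgebra.coeff_zero, Finsupp.zero_apply]
      · rw [sub_zero]
        have h1 : seqM D m M n := by
          have h2 := hnM.2.2
          exact ⟨hnM.1, hnM.2.1, by omega⟩
        exact Submodule.mem_iSup_of_mem n
          (Submodule.mem_iSup_of_mem h1 (XQ_mem w ε hm n (Q n)))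
  choose! Y hY using key
  refine ⟨∑ n ∈ s, Y n, Submodule.sum_mem _ fun n hn => (hY n hn).1, ?_, ?_⟩
  · rw [AddMonoidAlgebra.coeff_sum, Finsupp.finsetSum_apply]
    exact Finset.sum_eq_zero fun n hn => (hY n hn).2.1
  · rw [hXs, ← Finset.sum_sub_distrib]
    exact Submodule.sum_mem _ fun n hn => (hY n hn).2.2

theorem zdg_aux (hw : NV w) {ε : ℕ → ℕ} (hε : ∀ j, ε j ≤ ε (j + 1)) {m : ℕ} (hm : 1 ≤ m)
    (Pr : (ℕ → D.I → ℕ) → Prop)
    (hP2 : ∀ n, tot D m n → (∀ j, n (j + 1) ≤ n j) → meas m n ≠ 0 → Pr n) (M : ℕ) :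
    ∀ {X : AddMonoidAlgebra (S D Z) (B D → ℤ)},
    (X ∈ ⨆ n : ℕ → D.I → ℕ, ⨆ _ : seqM D m M n, UU w ε m n) → ∀ {c : S D Z},
    X.coeff (ind D Finset.univ) = c * del D Z ^ m →
    X - AddMonoidAlgebra.single (ind D Finset.univ) (c * del D Z ^ m) ∈ VV w ε m Pr := by
  induction M with
  | zero =>
    intro X hX c hc
    rw [zdg_zero w ε hm hX, hc, sub_self]
    exact Submodule.zero_mem _
  | succ M ih =>
    intro X hX c hc
    obtain ⟨Y, hY, hY0, hXY⟩ := zdg_step w hw hε hm Pr hP2 hX hc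
    have h1 := ih hXY (c := c) (by
      rw [AddMonoidAlgebra.coeff_sub, Finsupp.sub_apply, hY0, sub_zero, hc])
    have h2 : X - AddMonoidAlgebra.single (ind D Finset.univ) (c * del D Z ^ m) =
        (X - Y - AddMonoidAlgebra.single (ind D Finset.univ) (c * del D Z ^ m)) + Y := by
      abel
    rw [h2]
    exact Submodule.add_mem _ h1 hY

/-- an element of `VV` can be straightened -/
theorem zdg_le {ε : ℕ → ℕ} (hε : ∀ j, ε j ≤ ε (j + 1)) {m : ℕ} (Pr : (ℕ → D.I → ℕ) → Prop)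
    (hP1 : ∀ n, Pr n → tot D m n) :
    ∃ M, VV w ε m Pr ≤ ⨆ n : ℕ → D.I → ℕ, ⨆ _ : seqM D m M n, UU w ε m n := by
  refine ⟨m * ∑ i, D.v i, ?_⟩
  refine iSup_le fun n => iSup_le fun hn => ?_
  have ht : tot D m n := hP1 n hn
  exact (strG w hε n ht).trans (zdg_seqM_mono w ε (ZD_meas_le ht))

/-- Same proofs as in M/ZDstep.lean and M/ZD.lean (`zd_type`, `exists_sum`, `zd_zero`, `zd_step`,
`zd_aux`, `UN_le`, `zd`) with `ep 1` replaced by `ε` and `UN w m` replaced by `VV w ε m Pr`: in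
`zd_type` the sequence `n` is nested of measure `M + 1 ≠ 0`, so `Pr n` by `hP2`. -/
theorem zdG (hw : NV w) {ε : ℕ → ℕ} (hε : ∀ j, ε j ≤ ε (j + 1)) {m : ℕ} (hm : 1 ≤ m)
    (Pr : (ℕ → D.I → ℕ) → Prop) (hP1 : ∀ n, Pr n → tot D m n)
    (hP2 : ∀ n, tot D m n → (∀ j, n (j + 1) ≤ n j) → meas m n ≠ 0 → Pr n)
    {X : AddMonoidAlgebra (S D Z) (B D → ℤ)} (hX : X ∈ VV w ε m Pr) {c : S D Z}
    (hc : X.coeff (ind D Finset.univ) = c * del D Z ^ m) :
    AddMonoidAlgebra.single (ind D Finset.univ) (c * del D Z ^ m) ∈ VV w ε m Pr := by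
  obtain ⟨M, hM⟩ := zdg_le w hε Pr hP1
  have h := zdg_aux w hw hε hm Pr hP2 M (hM hX) hc
  have h2 := Submodule.sub_mem _ hX h
  rwa [sub_sub_cancel] at h2

end Vale.Agent.P291.H.N
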