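import Vale.Agent.P291.N.PartU
import Vale.Agent.P291.N.ExX
import Vale.Agent.P291.N.ZDG

set_option autoImplicit false
set_option linter.unusedSectionVars false

/-! The decomposition theorems in full type. -/

namespace Vale.Agent.P291.H.N

open MvPolynomial Vale.Agent.P291.G Vale.Agent.P291.H.M

variable {D : QData} {Z : Type} (w : Wts D Z)

lemma opW_e (A : Finset (B D)) : e (opW w) A = e w Aᶜ := by
  rw [e, e, compl_compl, Finset.prod_comm]
  rfl

/-- the pair weights of a colouring -/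
lemma lev_e {m : ℕ} (g : B D → Fin m) : ∏ t : Fin m, e w (fb D g t) =
    ∏ b : B D, ∏ c : B D, if g b ≠ g c then w.h b c else 1 := by
  classical
  have h1 : ∀ t : Fin m, e w (fb D g t) = ∏ b : B D, if g b = t then
      (∏ c : B D, if g b ≠ g c then w.h b c else 1) else 1 := by
    intro t
    rw [e, fb, Finset.prod_filter]
    refine Finset.prod_congr rfl fun b _ => ?_
    split_ifs with hb
    · have h3 : (Finset.univ.filter fun b : B D => g b = t)ᶜ =
          Finset.univ.filter fun c : B D => g b ≠ g c := by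
        ext c
        simp [← hb, eq_comm]
      rw [h3, Finset.prod_filter]
    · rfl
  rw [Finset.prod_congr rfl fun t _ => h1 t, Finset.prod_comm]
  refine Finset.prod_congr rfl fun b _ => ?_
  rw [Finset.prod_ite_eq, if_pos (Finset.mem_univ _)]

lemma opW_WW (ε : ℕ → ℕ) {m : ℕ} (g : B D → Fin m) : WW (opW w) ε g = WW w ε g := by
  classical
  rw [WW, WW, Finset.prod_mul_distrib, Finset.prod_mul_distrib, lev_e, lev_e, Finset.prod_comm]
  congr 1
  refine Finset.prod_congr rfl fun b _ => Finset.prod_congr rfl fun c _ => ?_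
  exact if_congr ne_comm rfl rfl

lemma lev_NV (hN : NV w) : NV (opW w) where
  h_ne := fun ι hι b c hbc => hN.h_ne ι hι c b hbc.symm
  z_ne := fun ι hι b => hN.z_ne ι hι b

lemma lev_sum {m : ℕ} (g : B D → Fin m) : ∑ j ∈ Finset.range m, tyf D g j = D.v := by
  classical
  rw [Finset.sum_range]
  funext i
  rw [Finset.sum_apply]
  have h1 : ∀ t : Fin m, tyf D g (t : ℕ) i =
      ((Finset.univ.filter fun b : B D => b.1 = i).filter fun b => g b = t).card := by
    intro t
    rw [tyf, dif_pos t.2, typ, fb, Finset.filter_comm]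
  rw [Finset.sum_congr rfl fun t _ => h1 t, ← Finset.card_eq_sum_card_fiberwise
    (fun _ _ => Finset.mem_coe.2 (Finset.mem_univ _))]
  have h2 := congrFun (typ_univ D) i
  rw [typ] at h2
  exact h2

lemma lev_tot {m : ℕ} (g : B D → Fin m) : totN D D.v m (tyf D g) :=
  ⟨fun _ hj => dif_neg (not_lt.2 hj), lev_sum g⟩

/-- a fibre of full type is everything -/
lemma lev_full {m : ℕ} {g : B D → Fin m} {t : Fin m} (h : typ D (fb D g t) = D.v) (b : B D) :
    g b = t := by
  have h1 : fb D g t = Finset.univ :=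
    eq_of_subset D (Finset.subset_univ _) (h.trans (typ_univ D).symm)
  have h2 : b ∈ fb D g t := by
    rw [h1]
    exact Finset.mem_univ _
  exact (mem_fb _ g t b).1 h2

lemma lev_ntF {m : ℕ} (g : B D → Fin m) (hg : ∃ b, (g b : ℕ) ≠ 0) : ntF D D.v m (tyf D g) := by
  refine ⟨lev_tot g, fun h => ?_⟩
  obtain ⟨b, hb⟩ := hg
  have hm : 0 < m := (Nat.zero_le _).trans_lt (g b).2
  rw [tyf, dif_pos hm] at h
  exact hb (by rw [lev_full h b])

lemma lev_ntU {m : ℕ} (g : B D → Fin m) (hg : ∃ b c, g b ≠ g c) : ntU D D.v m (tyf D g) := by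
  refine ⟨lev_tot g, fun j h => ?_⟩
  obtain ⟨b, c, hbc⟩ := hg
  by_cases hj : j < m
  · rw [tyf, dif_pos hj] at h
    exact hbc ((lev_full h b).trans (lev_full h c).symm)
  · rw [tyf, dif_neg hj] at h
    have h1 : 0 = D.v b.1 := congrFun h b.1
    have h2 := b.2.2
    omega

/-- a sequence with a full first slot has measure zero -/
lemma lev_meas {m : ℕ} {n : ℕ → D.I → ℕ} (h : tot D m n) (h0 : D.v ≤ n 0) : meas m n = 0 := by
  classical
  refine Finset.sum_eq_zero fun j hj => ?_
  rcases Nat.eq_zero_or_pos j with hj0 | hj0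
  · rw [hj0, zero_mul]
  · have h1 : ∑ i, n j i = 0 := by
      refine Finset.sum_eq_zero fun i _ => ?_
      have h2 := congrFun h.2 i
      rw [Finset.sum_apply] at h2
      have hj' := Finset.mem_range.1 hj
      have h3 : ∑ k ∈ ({0, j} : Finset ℕ), n k i ≤ ∑ k ∈ Finset.range m, n k i := by
        refine Finset.sum_le_sum_of_subset fun k hk => ?_
        rw [Finset.mem_insert, Finset.mem_singleton] at hk
        rw [Finset.mem_range]
        omega
      rw [Finset.sum_pair (by omega), h2] at h3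
      have h4 : D.v i ≤ n 0 i := h0 i
      omega
    rw [h1, mul_zero]

lemma lev_anti {n : ℕ → D.I → ℕ} (h : ∀ j, n (j + 1) ≤ n j) (j : ℕ) : n j ≤ n 0 := by
  induction j with
  | zero => exact le_rfl
  | succ j ih => exact (h j).trans ih

/-- with `J.Lab w`; for `w' = opW w` the two ideals and `WW` are the same -/
theorem levF (L : Vale.Agent.P291.J.Lab w) (hN : NV w) {r : S D Z} (hr : ∀ σ, act D Z σ r = r)
    (h : r * ddT D Z ∈ cutI w) {m : ℕ} (hm : Fintype.card (B D) + 1 ≤ m) (w' : Wts D Z)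
    (hw' : w' = w ∨ w' = opW w) :
    AddMonoidAlgebra.single (ind D Finset.univ) (r * del D Z ^ m) ∈
      VV w' (ep 1) m (ntF D D.v m) := by
  have hN' : NV w' := by
    rcases hw' with rfl | rfl
    · exact hN
    · exact lev_NV w hN
  have hWW : ∀ g : B D → Fin m, WW w' (ep 1) g = WW w (ep 1) g := by
    intro g
    rcases hw' with rfl | rfl
    · rfl
    · exact opW_WW w (ep 1) g
  have h1 := partI w L hm h
  have h2 : r * ddT D Z ∈ Ideal.span {p | ∃ g : B D → Fin m, (∃ b, (g b : ℕ) ≠ 0) ∧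
      p = RR D Z g * WW w' (ep 1) g} := by
    simp only [hWW]
    exact h1
  obtain ⟨X, hX, hXc⟩ := exists_XG w' (ep 1) (show 1 ≤ m by omega) hr
    (fun g => ∃ b, (g b : ℕ) ≠ 0) h2 (ntF D D.v m) (fun g hg => lev_ntF g hg)
  refine zdG w' hN' (fun j => ?_) (show 1 ≤ m by omega) (ntF D D.v m) (fun n hn => hn.1)
    (fun n h3 _ h5 => ⟨h3, fun h6 => h5 (lev_meas h3 h6.ge)⟩) hX hXc
  unfold ep
  split_ifs <;> omega

theorem levU (L : Vale.Agent.P291.J.Lab w) (hN : NV w) {r : S D Z} (hr : ∀ σ, act D Z σ r = r)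
    (h : r * ddT D Z ∈ cutU w) {m : ℕ} (hm : Fintype.card (B D) + 1 ≤ m) (w' : Wts D Z)
    (hw' : w' = w ∨ w' = opW w) :
    AddMonoidAlgebra.single (ind D Finset.univ) (r * del D Z ^ m) ∈
      VV w' e0 m (ntU D D.v m) := by
  have hN' : NV w' := by
    rcases hw' with rfl | rfl
    · exact hN
    · exact lev_NV w hN
  have hWW : ∀ g : B D → Fin m, WW w' e0 g = WW w e0 g := by
    intro g
    rcases hw' with rfl | rfl
    · rfl
    · exact opW_WW w e0 g
  have h1 := partU w L (show Fintype.card (B D) ≤ m by omega) h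
  have h2 : r * ddT D Z ∈ Ideal.span {p | ∃ g : B D → Fin m, (∃ b c, g b ≠ g c) ∧
      p = RR D Z g * WW w' e0 g} := by
    simp only [hWW]
    exact h1
  obtain ⟨X, hX, hXc⟩ := exists_XG w' e0 (show 1 ≤ m by omega) hr
    (fun g => ∃ b c, g b ≠ g c) h2 (ntU D D.v m) (fun g hg => lev_ntU g hg)
  exact zdG w' hN' (fun _ => le_rfl) (show 1 ≤ m by omega) (ntU D D.v m) (fun n hn => hn.1)
    (fun n h3 h4 h5 => ⟨h3, fun j h6 => h5 (lev_meas h3 (h6.ge.trans (lev_anti h4 j)))⟩) hX hXc

end Vale.Agent.P291.H.N
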