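import Vale.Agent.P291.N.Defs

set_option autoImplicit false
set_option linter.unusedSectionVars false

/-! Factorization of the coefficients of products of slots: the part which only depends on the
variables in the support `C` of the exponent, and a common factor. -/

namespace Vale.Agent.P291.H.N

open MvPolynomial Vale.Agent.P291.G Vale.Agent.P291.H.M

section
variable (D : QData) (Z : Type)

/-- product of the differences of the ordered pairs in `C` -/
noncomputable def PiC (C : Finset (B D)) : S D Z :=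
  ∏ b ∈ C, ∏ c ∈ C, if b ≠ c ∧ b.1 = c.1 then xx D Z b - xx D Z c else 1

/-- the part of `PiC` complementary to `cr A (C \ A)` -/
noncomputable def qC (C A : Finset (B D)) : S D Z :=
  ∏ b ∈ C, ∏ c ∈ C, if (b ≠ c ∧ b.1 = c.1) ∧ ¬ (b ∈ A ∧ c ∉ A) then xx D Z b - xx D Z c else 1

/-- common factor of the products of the `cr (A t) Cᶜ`, `∑ t, ind (A t) = l` -/
noncomputable def OmC (C : Finset (B D)) (l : B D → ℤ) : S D Z :=
  ∏ b ∈ C, (∏ c ∈ Cᶜ, if b.1 = c.1 then xx D Z b - xx D Z c else 1) ^ (l b).toNat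

end

section
variable {D : QData} {Z : Type} (w : Wts D Z)

/-- inner part of `e` -/
noncomputable def eC (C A : Finset (B D)) : S D Z := ∏ b ∈ A, ∏ c ∈ C \ A, w.h b c

/-- common factor of the outer parts of the `e (A t)`, `∑ t, ind (A t) = l` -/
noncomputable def HC (C : Finset (B D)) (l : B D → ℤ) : S D Z :=
  ∏ b ∈ C, (∏ c ∈ Cᶜ, w.h b c) ^ (l b).toNat

/-- inner part of the weight of a tuple of subsets of `C` -/
noncomputable def LC (C : Finset (B D)) (ε : ℕ → ℕ) {m : ℕ} (A : Fin m → Finset (B D)) : S D Z :=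
  ∏ t : Fin m, (qC D Z C (A t) * (eC w C (A t) * zs w (A t) ^ ε t))

lemma PiC_ne_zero (C : Finset (B D)) : PiC D Z C ≠ 0 := by
  rw [PiC, Finset.prod_ne_zero_iff]
  intro b _
  rw [Finset.prod_ne_zero_iff]
  intro c _
  split_ifs with h
  · exact vdm_sub_ne D Z h.1
  · exact one_ne_zero

lemma OmC_ne_zero (C : Finset (B D)) (l : B D → ℤ) : OmC D Z C l ≠ 0 := by
  rw [OmC, Finset.prod_ne_zero_iff]
  intro b hb'
  refine pow_ne_zero _ ?_
  rw [Finset.prod_ne_zero_iff]
  intro c hc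
  split_ifs
  · refine vdm_sub_ne D Z ?_
    rintro rfl
    exact Finset.mem_compl.1 hc hb'
  · exact one_ne_zero

lemma HC_ne_zero (C : Finset (B D)) (l : B D → ℤ) : HC w C l ≠ 0 := by
  rw [HC, Finset.prod_ne_zero_iff]
  intro b hb'
  refine pow_ne_zero _ ?_
  rw [Finset.prod_ne_zero_iff]
  intro c hc
  refine w.h_ne b c ?_
  rintro rfl
  exact Finset.mem_compl.1 hc hb'

/-- `del = cr A Aᶜ * Dl A` (`Dl_spec`), `cr A Aᶜ = cr A (C \ A) * cr A Cᶜ`,
`PiC C = cr A (C \ A) * qC C A` -/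
lemma loc_Dl {C A : Finset (B D)} (h : A ⊆ C) :
    Dl D Z A * (cr D Z A Cᶜ * PiC D Z C) = del D Z * qC D Z C A := by
  classical
  have h1 : cr D Z A Aᶜ = cr D Z A (C \ A) * cr D Z A Cᶜ := by
    rw [cr, cr, cr, ← Finset.prod_mul_distrib]
    refine Finset.prod_congr rfl fun b _ => ?_
    rw [← Finset.prod_union]
    · congr 1
      ext c
      simp only [Finset.mem_compl, Finset.mem_union, Finset.mem_sdiff]
      have := @h c
      tauto
    · rw [Finset.disjoint_left]
      intro c h2 h3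
      exact Finset.mem_compl.1 h3 (Finset.mem_sdiff.1 h2).1
  have h2 : PiC D Z C = cr D Z A (C \ A) * qC D Z C A := by
    have h3 : cr D Z A (C \ A) = ∏ b ∈ C, ∏ c ∈ C,
        if (b ≠ c ∧ b.1 = c.1) ∧ (b ∈ A ∧ c ∉ A) then xx D Z b - xx D Z c else 1 := by
      rw [cr, ← Finset.prod_subset h]
      · refine Finset.prod_congr rfl fun b hb' => ?_
        rw [← Finset.prod_subset (Finset.sdiff_subset (s := C) (t := A))]
        · refine Finset.prod_congr rfl fun c hc => ?_
          have hc' := (Finset.mem_sdiff.1 hc).2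
          have hne : b ≠ c := fun h4 => hc' (h4 ▸ hb')
          by_cases h5 : b.1 = c.1 <;> simp [h5, hne, hb', hc']
        · intro c hc hc'
          rw [if_neg]
          rintro ⟨-, -, h5⟩
          exact hc' (Finset.mem_sdiff.2 ⟨hc, h5⟩)
      · intro b _ hb'
        refine Finset.prod_eq_one fun c _ => ?_
        rw [if_neg]
        rintro ⟨-, h5, -⟩
        exact hb' h5
    rw [h3, PiC, qC, ← Finset.prod_mul_distrib]
    refine Finset.prod_congr rfl fun b _ => ?_
    rw [← Finset.prod_mul_distrib]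
    refine Finset.prod_congr rfl fun c _ => ?_
    by_cases h5 : b ≠ c ∧ b.1 = c.1 <;> by_cases h6 : b ∈ A ∧ c ∉ A
    · rw [if_pos h5, if_pos ⟨h5, h6⟩, if_neg fun h7 => h7.2 h6, mul_one]
    · rw [if_pos h5, if_neg fun h7 => h6 h7.2, if_pos ⟨h5, h6⟩, one_mul]
    · rw [if_neg h5, if_neg fun h7 => h5 h7.1, if_neg fun h7 => h5 h7.1, one_mul]
    · rw [if_neg h5, if_neg fun h7 => h5 h7.1, if_neg fun h7 => h5 h7.1, one_mul]
  rw [Dl_spec D Z A, h1, h2]
  ring

lemma loc_e {C A : Finset (B D)} (h : A ⊆ C) :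
    e w A = eC w C A * ∏ b ∈ A, ∏ c ∈ Cᶜ, w.h b c := by
  classical
  rw [e, eC, ← Finset.prod_mul_distrib]
  refine Finset.prod_congr rfl fun b _ => ?_
  rw [← Finset.prod_union]
  · congr 1
    ext c
    simp only [Finset.mem_compl, Finset.mem_union, Finset.mem_sdiff]
    have := @h c
    tauto
  · rw [Finset.disjoint_left]
    intro c h2 h3
    exact Finset.mem_compl.1 h3 (Finset.mem_sdiff.1 h2).1

/-- `l b = ∑ t, ind (A t) b` is the number of `t` with `b ∈ A t` -/
lemma loc_prod {M : Type} [CommMonoid M] {C : Finset (B D)} {m : ℕ} {A : Fin m → Finset (B D)}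
    (hA : ∀ t, A t ⊆ C) {l : B D → ℤ} (hl : ∑ t, ind D (A t) = l) (F : B D → M) :
    ∏ t : Fin m, ∏ b ∈ A t, F b = ∏ b ∈ C, F b ^ (l b).toNat := by
  classical
  have h1 : ∀ t : Fin m, ∏ b ∈ A t, F b = ∏ b ∈ C, F b ^ (if b ∈ A t then 1 else 0) := by
    intro t
    rw [← Finset.prod_subset (hA t)]
    · refine Finset.prod_congr rfl fun b hb' => ?_
      rw [if_pos hb', pow_one]
    · intro b _ hb'
      rw [if_neg hb', pow_zero]
  rw [Finset.prod_congr rfl fun t _ => h1 t, Finset.prod_comm]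
  refine Finset.prod_congr rfl fun b _ => ?_
  rw [Finset.prod_pow_eq_pow_sum]
  congr 1
  have h2 : l b = ((∑ t : Fin m, if b ∈ A t then 1 else 0 : ℕ) : ℤ) := by
    rw [← hl, Finset.sum_apply]
    push_cast
    rfl
  rw [h2, Int.toNat_natCast]

/-- from `loc_Dl`, `loc_e`, `loc_prod` -/
theorem loc_main (ε : ℕ → ℕ) {C : Finset (B D)} {m : ℕ} {A : Fin m → Finset (B D)}
    (hA : ∀ t, A t ⊆ C) {l : B D → ℤ} (hl : ∑ t, ind D (A t) = l) :
    (∏ t : Fin m, (Dl D Z (A t) * (e w (A t) * zs w (A t) ^ ε t))) *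
      (OmC D Z C l * PiC D Z C ^ m) = (del D Z ^ m * HC w C l) * LC w C ε A := by
  have h1 : OmC D Z C l = ∏ t : Fin m, cr D Z (A t) Cᶜ := by
    rw [OmC, ← loc_prod hA hl]
    rfl
  have h2 : HC w C l = ∏ t : Fin m, ∏ b ∈ A t, ∏ c ∈ Cᶜ, w.h b c := by
    rw [HC, ← loc_prod hA hl]
  have h3 : ∀ x : S D Z, x ^ m = ∏ _t : Fin m, x := by
    intro x
    rw [Finset.prod_const, Finset.card_univ, Fintype.card_fin]
  rw [h1, h2, LC, h3 (PiC D Z C), h3 (del D Z), ← Finset.prod_mul_distrib,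
    ← Finset.prod_mul_distrib, ← Finset.prod_mul_distrib, ← Finset.prod_mul_distrib]
  refine Finset.prod_congr rfl fun t _ => ?_
  have h4 := loc_Dl (D := D) (Z := Z) (hA t)
  have h5 := loc_e w (hA t)
  rw [h5]
  linear_combination (eC w C (A t) * (∏ b ∈ A t, ∏ c ∈ Cᶜ, w.h b c) * zs w (A t) ^ ε t) * h4

/-- for `l = ind C` -/
lemma OmC_ind (C : Finset (B D)) : OmC D Z C (ind D C) = cr D Z C Cᶜ := by
  rw [OmC, cr]
  refine Finset.prod_congr rfl fun b hb' => ?_
  have h1 : ind D C b = 1 := if_pos hb'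
  rw [h1, Int.toNat_one, pow_one]

lemma HC_ind (C : Finset (B D)) : HC w C (ind D C) = e w C := by
  rw [HC, e]
  refine Finset.prod_congr rfl fun b hb' => ?_
  have h1 : ind D C b = 1 := if_pos hb'
  rw [h1, Int.toNat_one, pow_one]

open Classical in
/-- coefficients of `XQ` (`AddMonoidAlgebra.coeff_single`) -/
lemma coeff_XQ_gen (ε : ℕ → ℕ) {m : ℕ} (n : ℕ → D.I → ℕ) (Q : PP D Z m) (l : B D → ℤ) :
    (XQ w ε n Q).coeff l = ∑ A : Fin m → Finset (B D),
      if (∀ t : Fin m, typ D (A t) = n t) ∧ ∑ t, ind D (A t) = l then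
        evA D Z A Q * ∏ t : Fin m, (Dl D Z (A t) * (e w (A t) * zs w (A t) ^ ε t)) else 0 := by
  rw [XQ, AddMonoidAlgebra.coeff_sum, Finsupp.finsetSum_apply]
  refine Finset.sum_congr rfl fun A _ => ?_
  by_cases h3 : ∀ t : Fin m, typ D (A t) = n t
  · rw [if_pos h3, AddMonoidAlgebra.coeff_single, Finsupp.single_apply]
    by_cases h4 : ∑ t, ind D (A t) = l
    · rw [if_pos h4, if_pos ⟨h3, h4⟩]
    · rw [if_neg h4, if_neg fun h5 => h4 h5.2]
  · rw [if_neg h3, if_neg fun h5 => h3 h5.1]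
    rfl

end

end Vale.Agent.P291.H.N
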