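import Vale.Agent.P291.N.Reg
import Vale.Agent.P291.M.AllNu

set_option autoImplicit false
set_option linter.unusedSectionVars false

/-! The theorem for all regular characters. -/

namespace Vale.Agent.P291.H.N

open MvPolynomial Vale.Agent.P291.G Vale.Agent.P291.H.M

variable (D : QData) {K L : Type} [Field K] [Algebra ℂ K] [CommRing L] [Algebra K L]
  (x : B D → K) (y : Fin D.rk → K) (u : Module.Basis (B D → ℤ) K L)

lemma min_ind {l : B D → ℤ} (h : Min D l) : l = ind D (Finset.univ.filter fun b => l b = 1) := by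
  funext b
  rw [ind]
  simp only [Finset.mem_filter, Finset.mem_univ, true_and]
  rcases h b with h | h <;> simp [h]

/-- surjectivity of `φ_C` for every `ν` such that the minuscule operators are in `fixI ν` -/
theorem surj' (hu : ∀ l l', u (l + l') = u l * u l') (ν : D.I → ℤ)
    (hm : ∀ A : Finset (B D), A.Nonempty → ∀ f, mono D x y u (ind D A) f ∈ fixI D x y u ν ∧
      mono D x y u (-ind D A) f ∈ fixI D x y u ν) {a : L} (ha : a ∈ coulomb D x y u) :
    ∃ r ∈ R D x y, a - algebraMap K L r ∈ fixI D x y u ν := by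
  induction ha using Subring.closure_induction with
  | mem a ha =>
    rcases ha with ⟨r, hr, rfl⟩ | ⟨l, f, hl, h⟩
    · exact ⟨r, hr, by rw [sub_self]; exact AddSubgroup.zero_mem _⟩
    · by_cases hl0 : l = 0
      · subst hl0
        refine ⟨_, cls_zero_mem D x y f, ?_⟩
        have h1 : a = algebraMap K L (cls D x y 0 f) := by
          rcases h with rfl | rfl
          · exact mono_zero D x y u hu f
          · rw [neg_zero]; exact mono_zero D x y u hu f
        rw [h1, sub_self]
        exact AddSubgroup.zero_mem _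
      · refine ⟨0, R_zero D x y, ?_⟩
        rw [map_zero, sub_zero]
        obtain ⟨b, hb⟩ := Function.ne_iff.1 hl0
        have hA : (Finset.univ.filter fun b => l b = 1).Nonempty :=
          ⟨b, by
            rw [Finset.mem_filter]
            exact ⟨Finset.mem_univ _, (hl b).resolve_left hb⟩⟩
        rw [min_ind D hl] at h
        rcases h with rfl | rfl
        · exact (hm _ hA f).1
        · exact (hm _ hA f).2
  | zero => exact ⟨0, R_zero D x y, by rw [map_zero, sub_zero]; exact AddSubgroup.zero_mem _⟩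
  | one => exact ⟨1, R_one D x y, by rw [map_one, sub_self]; exact AddSubgroup.zero_mem _⟩
  | add a b _ _ ha hb =>
    obtain ⟨r, hr, hr'⟩ := ha
    obtain ⟨s, hs, hs'⟩ := hb
    exact ⟨r + s, R_add D x y hr hs, by
      rw [map_add, add_sub_add_comm]
      exact AddSubgroup.add_mem _ hr' hs'⟩
  | neg a _ ha =>
    obtain ⟨r, hr, hr'⟩ := ha
    exact ⟨-r, R_neg D x y hr, by
      have := AddSubgroup.neg_mem _ hr'
      rw [map_neg]
      rwa [neg_sub, ← neg_sub_neg] at this⟩
  | mul a b ha' hb' ha hb =>
    obtain ⟨r, hr, hr'⟩ := ha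
    obtain ⟨s, hs, hs'⟩ := hb
    refine ⟨r * s, R_mul D x y hr hs, ?_⟩
    have h1 : a * b - algebraMap K L (r * s) = a * (b - algebraMap K L s) +
        algebraMap K L s * (a - algebraMap K L r) := by
      rw [map_mul]; ring
    rw [h1]
    exact AddSubgroup.add_mem _ (fixI_mul D x y u ν ha' hs')
      (fixI_mul D x y u ν (R_mem_coulomb D x y u hs) hr')

/-- the theorem for all regular characters -/
theorem main_reg (hxy : AlgebraicIndependent ℂ (Sum.elim x y))
    (hu : ∀ l l', u (l + l') = u l * u l') {ν : D.I → ℤ}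
    (hν : Vale.Agent.P291.T.Regular D ν) :
    (∀ a ∈ coulomb D x y u, ∃ r ∈ R D x y, a - algebraMap K L r ∈ fixI D x y u ν) ∧
    ∀ r ∈ R D x y, algebraMap K L r ∈ fixI D x y u ν ↔ r ∈ kerJ D x y := by
  have hs : ∀ a ∈ coulomb D x y u, ∃ r ∈ R D x y, a - algebraMap K L r ∈ fixI D x y u ν :=
    fun a ha => surj' D x y u hu ν
      (fun A hA f => all_mem D ν x y u hxy hu (HR_of_regular D hν) hA f) ha
  exact ⟨hs, fun r hr => ker_iff_of_surj D x y u hu hxy ν hs hr⟩

end Vale.Agent.P291.H.N
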