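import Vale.Agent.P291.N.Defs
import Vale.Agent.P291.M.PartI

set_option autoImplicit false
set_option linter.unusedSectionVars false

/-! Part I without framing. -/

namespace Vale.Agent.P291.H.N

open MvPolynomial Vale.Agent.P291.G Vale.Agent.P291.H.M

variable {D : QData} {Z : Type} (w : Wts D Z)

variable (D Z) in
/-- differences of the pairs of marks at the same vertex -/
noncomputable def TU (b c : B D) : S D Z := J.TH D Z (some b) (some c)

lemma some_mem_image {C : Set (B D)} {b : B D} :
    (some b : Option (B D)) ∈ (some '' C : Set (Option (B D))) ↔ b ∈ C := by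
  simp

/-- the translations -/
noncomputable def transU (L : Vale.Agent.P291.J.Lab w) (b₀ : B D) :
    Vale.Agent.P291.J.Trans w.h (TU D Z) b₀ where
  τ C := (J.tr D Z (some '' C) : S D Z →+* Polynomial (S D Z))
  τ0 C s := J.tr_coeff_zero D Z _ s
  τD C a b _ hab := by
    change J.tr D Z (some '' C) (w.h a b) = Polynomial.C (w.h a b)
    rw [L.hh, map_prod, map_prod]
    refine Finset.prod_congr rfl fun k _ => ?_
    rw [map_add, map_sub, map_add, map_sub, L.hta]
    by_cases ha : a ∈ C
    · rw [J.tr_xx_of D Z (some_mem_image.2 ha), J.tr_xx_of D Z (some_mem_image.2 (hab.1 ha))]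
      ring
    · rw [J.tr_xx_not D Z fun h => ha (some_mem_image.1 h),
        J.tr_xx_not D Z fun h => ha (hab.2 (some_mem_image.1 h))]
  τθ C a b _ hab := by
    change J.tr D Z (some '' C) (J.TH D Z (some a) (some b)) =
      Polynomial.C (J.TH D Z (some a) (some b))
    rw [J.TH]
    split_ifs
    · rw [map_sub, map_sub]
      by_cases ha : a ∈ C
      · rw [J.tr_xx_of D Z (some_mem_image.2 ha), J.tr_xx_of D Z (some_mem_image.2 (hab.1 ha))]
        ring
      · rw [J.tr_xx_not D Z fun h => ha (some_mem_image.1 h),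
          J.tr_xx_not D Z fun h => ha (hab.2 (some_mem_image.1 h))]
    · rw [map_one, map_one]
  τu C a b _ hab := by
    change IsUnit (J.tr D Z (some '' C) (w.h a b)).leadingCoeff
    rw [L.hh, map_prod]
    refine J.lc_prod _ _ fun k _ => ?_
    rw [map_add, map_sub, L.hta]
    by_cases ha : a ∈ C
    · have hb : b ∉ C := fun h => hab ⟨fun _ => h, fun _ => ha⟩
      rw [J.tr_xx_of D Z (some_mem_image.2 ha),
        J.tr_xx_not D Z fun h => hb (some_mem_image.1 h)]
      exact J.lc_sub _ _ _
    · have hb : b ∈ C := by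
        by_contra h
        exact hab ⟨fun h1 => absurd h1 ha, fun h1 => absurd h1 h⟩
      rw [J.tr_xx_not D Z fun h => ha (some_mem_image.1 h),
        J.tr_xx_of D Z (some_mem_image.2 hb)]
      exact J.lc_add _ _ _

/-- `WW w e0 g` is the product of the `h b c` with `g b ≠ g c` -/
lemma WWe0_eq {m : ℕ} (g : B D → Fin m) :
    WW w e0 g = ∏ p : B D × B D, if g p.1 ≠ g p.2 then w.h p.1 p.2 else 1 := by
  classical
  have h1 : ∀ t : Fin m, e w (fb D g t) * zs w (fb D g t) ^ e0 t = ∏ b : B D, if g b = t then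
      (∏ c : B D, if g b ≠ g c then w.h b c else 1) else 1 := by
    intro t
    rw [e0, pow_zero, mul_one, e, fb, Finset.prod_filter]
    refine Finset.prod_congr rfl fun b _ => ?_
    split_ifs with hb
    · have h3 : (Finset.univ.filter fun b : B D => g b = t)ᶜ =
          Finset.univ.filter fun c : B D => g b ≠ g c := by
        ext c
        simp [← hb, eq_comm]
      rw [h3, Finset.prod_filter]
    · rfl
  rw [WW, Finset.prod_congr rfl fun t _ => h1 t, Finset.prod_comm, Fintype.prod_prod_type]
  refine Finset.prod_congr rfl fun b _ => ?_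
  rw [Finset.prod_ite_eq, if_pos (Finset.mem_univ _)]

lemma mmU_eq {m : ℕ} (r : Setoid (B D)) (g : B D → Fin m) (hg : ∀ a b, r a b ↔ g a = g b) :
    J.mm w.h r = WW w e0 g := by
  classical
  rw [WWe0_eq, J.mm]
  refine Finset.prod_congr rfl fun p _ => ?_
  by_cases h1 : g p.1 = g p.2
  · rw [if_pos ((hg _ _).2 h1), if_neg fun h2 => h2 h1]
  · rw [if_neg fun h2 => h1 ((hg _ _).1 h2), if_pos h1]

lemma thU_eq {m : ℕ} (r : Setoid (B D)) (g : B D → Fin m) (hg : ∀ a b, r a b ↔ g a = g b) :
    J.th (TU D Z) r = RR D Z g := by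
  classical
  rw [J.th, RR, dd, Fintype.prod_prod_type]
  refine Finset.prod_congr rfl fun b _ => Finset.prod_congr rfl fun c _ => ?_
  dsimp only
  by_cases h1 : g b = g c
  · rw [if_pos ((hg _ _).2 h1), TU, J.TH]
    by_cases h : b ≠ c ∧ b.1 = c.1
    · exact (if_pos h).trans (if_pos ⟨h.1, h.2, h1⟩).symm
    · exact (if_neg h).trans (if_neg fun h' => h ⟨h'.1, h'.2.1⟩).symm
  · rw [if_neg fun h2 => h1 ((hg _ _).1 h2), if_neg fun h2 => h1 h2.2.2]

lemma thU_top : J.th (TU D Z) ⊤ = ddT D Z := by
  classical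
  rw [J.th, ddT, dd, Fintype.prod_prod_type]
  refine Finset.prod_congr rfl fun b _ => Finset.prod_congr rfl fun c _ => ?_
  dsimp only
  rw [if_pos (by rw [Setoid.top_def]; trivial), TU, J.TH]
  by_cases h : b ≠ c ∧ b.1 = c.1
  · exact (if_pos h).trans (if_pos ⟨h.1, h.2, trivial⟩).symm
  · exact (if_neg h).trans (if_neg fun h' => h ⟨h'.1, h'.2.1⟩).symm

lemma mmU_top : J.mm w.h ⊤ = 1 := by
  classical
  rw [J.mm]
  refine Finset.prod_eq_one fun p _ => ?_
  rw [if_pos (by rw [Setoid.top_def]; trivial)]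

lemma mmU_cut (N : Finset (B D)) :
    J.mm w.h (Setoid.ker fun b : B D => b ∈ N) = e w N * e w Nᶜ := by
  classical
  rw [J.mm, e, e, compl_compl, Fintype.prod_prod_type, ← Finset.prod_mul_prod_compl N]
  congr 1
  · refine Finset.prod_congr rfl fun b hb => ?_
    rw [← Finset.prod_subset (Finset.subset_univ Nᶜ)]
    · refine Finset.prod_congr rfl fun c hc => ?_
      rw [Finset.mem_compl] at hc
      dsimp only
      rw [if_neg]
      rw [Setoid.ker_def]
      simp [hb, hc]
    · intro c _ hc
      rw [Finset.mem_compl, not_not] at hc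
      dsimp only
      rw [if_pos]
      rw [Setoid.ker_def]
      simp [hb, hc]
  · refine Finset.prod_congr rfl fun b hb => ?_
    rw [Finset.mem_compl] at hb
    rw [← Finset.prod_subset (Finset.subset_univ N)]
    · refine Finset.prod_congr rfl fun c hc => ?_
      dsimp only
      rw [if_neg]
      rw [Setoid.ker_def]
      simp [hb, hc]
    · intro c _ hc
      dsimp only
      rw [if_pos]
      rw [Setoid.ker_def]
      simp [hb, hc]

/-- a partition comes from a colouring -/
lemma exists_colouringU (r : Setoid (B D)) {m : ℕ} (hm : Fintype.card (B D) ≤ m) :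
    ∃ g : B D → Fin m, ∀ a b, r a b ↔ g a = g b := by
  classical
  have hfin : Fintype (Quotient r) := Fintype.ofFinite _
  have hcard : Fintype.card (Quotient r) ≤ Fintype.card (Fin m) := by
    have h := J.nb_le_card r
    rw [J.nb, Nat.card_eq_fintype_card] at h
    rw [Fintype.card_fin]
    omega
  obtain ⟨f⟩ := Function.Embedding.nonempty_of_card_le hcard
  exact ⟨fun b => f (Quotient.mk r b), fun a b =>
    ⟨fun hab => congrArg f (Quotient.sound hab), fun hab => Quotient.exact (f.injective hab)⟩⟩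

/-- Proof: if `B D` is empty, `cutU w = ⊥`. Otherwise choose `b₀ : B D` and apply
`Vale.Agent.P291.J.cluster` (J/Cluster.lean) with `Y = B D`, `pt = b₀`, `D = w.h`,
`θ b c = if b ≠ c ∧ b.1 = c.1 then xx b - xx c else 1`, `l = 2` (adapt `J.trans`, `J.mm_eq`,
`J.th_eq`, `J.exists_colouring`, `J.partI` of J/PartI.lean: a partition of `B D` into at least two
classes is the kernel of a nonconstant colouring `g : B D → Fin m`; `mm w.h r = WW w e0 g` (cf.
`Wg_eq` in M/PartI.lean), `th θ r = RR D Z g` (cf. `Rnc_eq`), `ddT` = the case of a constant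
colouring (cf. `Delta_eq`)). -/
theorem partU (L : Vale.Agent.P291.J.Lab w) {m : ℕ} (hm : Fintype.card (B D) ≤ m) {u : S D Z}
    (h : u * ddT D Z ∈ cutU w) :
    u * ddT D Z ∈ Ideal.span {p | ∃ g : B D → Fin m, (∃ b c, g b ≠ g c) ∧
      p = RR D Z g * WW w e0 g} := by
  classical
  rcases isEmpty_or_nonempty (B D) with hB | hB
  · have h0 : cutU w = ⊥ := by
      rw [eq_bot_iff]
      refine Ideal.span_le.2 ?_
      rintro _ ⟨N, ⟨b, _⟩, _⟩
      exact hB.elim b
    rw [h0, Ideal.mem_bot] at h
    rw [h]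
    exact Ideal.zero_mem _
  · obtain ⟨b₀⟩ := hB
    have h1 : u * ddT D Z ∈ J.WW w.h (TU D Z) 0 := by
      refine Ideal.mul_mem_left _ _ (Ideal.subset_span ⟨⊤, Nat.zero_le _, ?_⟩)
      rw [mmU_top, thU_top, one_mul]
    have h2 : u * ddT D Z ∈ J.KK w.h 2 := by
      have h3 : cutU w ≤ J.KK w.h 2 := by
        refine Ideal.span_le.2 ?_
        rintro _ ⟨N, hN, hN', rfl⟩
        refine Ideal.subset_span ⟨Setoid.ker fun b : B D => b ∈ N, ?_, (mmU_cut w N).symm⟩
        obtain ⟨b, hb⟩ := hN
        obtain ⟨c, hc⟩ : ∃ c, c ∉ N := by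
          by_contra hc
          push Not at hc
          exact hN' (Finset.eq_univ_iff_forall.2 hc)
        rw [J.nb]
        have h3 : Nontrivial (Quotient (Setoid.ker fun b : B D => b ∈ N)) := by
          refine ⟨⟨Quotient.mk _ b, Quotient.mk _ c, fun h4 => ?_⟩⟩
          have h5 : (b ∈ N) = (c ∈ N) := Quotient.exact h4
          exact hc (h5 ▸ hb)
        exact Finite.one_lt_card
      exact h3 h
    have h3 := J.cluster (transU w L b₀) 2 h1 h2
    refine (?_ : J.WW w.h (TU D Z) 2 ≤ _) h3
    refine Ideal.span_le.2 ?_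
    rintro _ ⟨r, hr, rfl⟩
    obtain ⟨g, hg⟩ := exists_colouringU r hm
    refine Ideal.subset_span ⟨g, ?_, ?_⟩
    · by_contra h4
      push Not at h4
      have h6 : Subsingleton (Quotient r) := by
        refine ⟨fun x y => ?_⟩
        obtain ⟨a, rfl⟩ := Quotient.mk_surjective x
        obtain ⟨b, rfl⟩ := Quotient.mk_surjective y
        exact Quotient.sound ((hg a b).2 (h4 a b))
      rw [J.nb] at hr
      have h7 : Nat.card (Quotient r) ≤ 1 := Finite.card_le_one_iff_subsingleton.2 h6
      omega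
    · rw [mmU_eq w r g hg, thU_eq r g hg, mul_comm]

end Vale.Agent.P291.H.N
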