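import Vale.Agent.P291.N.Dec
import Vale.Agent.P291.T.Cut
import Vale.Agent.P291.M.CutW

set_option autoImplicit false
set_option linter.unusedSectionVars false

/-! Retraction onto the variables of one class of a colouring. -/

namespace Vale.Agent.P291.H.N

open MvPolynomial Vale.Agent.P291.G Vale.Agent.P291.H.M

variable (D : QData)

section retr

variable {D} (c : B D → ℕ) (j : ℕ)

/-- the marks of colour `i` in the class `j` -/
def rtF (i : D.I) : Finset (Fin (D.v i)) := Finset.univ.filter fun r => c ⟨i, r⟩ = j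

lemma rtF_card {N : D.I → ℕ} (hN : typ D (Finset.univ.filter fun b => c b = j) = N) (i : D.I) :
    (rtF c j i).card = N i := by
  have h : (Finset.univ.filter fun b : B D => c b = j).filter (fun b => b.1 = i) =
      (rtF c j i).map ⟨Sigma.mk i, sigma_mk_injective⟩ := by
    ext b
    simp only [Finset.mem_map, Finset.mem_filter, Finset.mem_univ, true_and, rtF,
      Function.Embedding.coeFn_mk]
    constructor
    · rintro ⟨h1, rfl⟩
      exact ⟨b.2, h1, rfl⟩
    · rintro ⟨r, hr, rfl⟩
      exact ⟨hr, rfl⟩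
  rw [← hN, typ, h, Finset.card_map]

variable {N : D.I → ℕ} (hN : typ D (Finset.univ.filter fun b => c b = j) = N)

/-- enumeration of the class `j` -/
def rtm (b : B (sub D N)) : B D :=
  ⟨b.1, (rtF c j b.1).orderEmbOfFin (rtF_card c j hN b.1) b.2⟩

lemma rtm_fst (b : B (sub D N)) : (rtm c j hN b).1 = b.1 := rfl

lemma rtm_inj : Function.Injective (rtm c j hN) := by
  rintro ⟨i, r⟩ ⟨i', r'⟩ h
  have h1 : i = i' := congrArg Sigma.fst h
  subst h1
  have h2 : (rtF c j i).orderEmbOfFin (rtF_card c j hN i) r =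
      (rtF c j i).orderEmbOfFin (rtF_card c j hN i) r' := by
    simpa [rtm] using h
  rw [((rtF c j i).orderEmbOfFin (rtF_card c j hN i)).injective h2]

lemma rtm_mem (b : B (sub D N)) : c (rtm c j hN b) = j := by
  exact (Finset.mem_filter.1 (Finset.orderEmbOfFin_mem (rtF c j b.1) (rtF_card c j hN b.1) b.2)).2

lemma rtm_surj {b : B D} (hb : c b = j) : ∃ b', rtm c j hN b' = b := by
  obtain ⟨i, r⟩ := b
  have h : r ∈ Set.range ((rtF c j i).orderEmbOfFin (rtF_card c j hN i)) := by
    rw [Finset.range_orderEmbOfFin]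
    simpa [rtF] using hb
  obtain ⟨r', hr⟩ := h
  exact ⟨⟨i, r'⟩, by rw [rtm, hr]⟩

lemma rtm_prod {C : Type} [CommMonoid C] (f : B D → C) (hf : ∀ b, c b ≠ j → f b = 1) :
    ∏ b, f b = ∏ b', f (rtm c j hN b') := by
  refine (Fintype.prod_of_injective (rtm c j hN) (rtm_inj c j hN) _ _ (fun b hb => ?_)
    fun _ => rfl).symm
  exact hf b fun h => hb (rtm_surj c j hN h)

/-- the retraction -/
noncomputable def rth : S D (ZZ D) →ₐ[ℂ] S (sub D N) (ZZ D) :=
  aeval (Sum.elim (Function.extend (rtm c j hN) (fun b => X (Sum.inl b)) fun _ => 0)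
    fun z => X (Sum.inr z))

lemma rth_X (b : B (sub D N)) :
    rth c j hN (X (Sum.inl (rtm c j hN b))) = X (Sum.inl b) := by
  rw [rth, aeval_X, Sum.elim_inl, (rtm_inj c j hN).extend_apply]

lemma rth_Z (z : ZZ D) : rth c j hN (X (Sum.inr z)) = X (Sum.inr z) := by
  rw [rth, aeval_X, Sum.elim_inr]

lemma rth_hq (p q : B (sub D N)) :
    rth c j hN (hq D (rtm c j hN p) (rtm c j hN q) 0) = hq (sub D N) p q 0 := by
  rw [hq, hq, map_prod]
  refine Finset.prod_congr rfl fun a _ => ?_
  rw [map_add, map_add, map_sub, map_zero, xq, xx, xq, xx, tv, rth_X, rth_X, rth_Z]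
  rfl

lemma rth_zq (b : B (sub D N)) :
    rth c j hN (zq D (rtm c j hN b) 0) = zq (sub D N) b 0 := by
  rw [zq, zq, map_prod]
  refine Finset.prod_congr rfl fun a _ => ?_
  rw [map_add, map_sub, map_zero, xq, xx, zv, rth_X, rth_Z]
  rfl

lemma rth_disc : rth c j hN (Vale.Agent.P291.T.disc D (fun b => (X (.inl b) : S D (ZZ D))) c j) =
    ddT (sub D N) (ZZ D) := by
  classical
  have h1 : Vale.Agent.P291.T.disc D (fun b => (X (.inl b) : S D (ZZ D))) c j =
      ∏ b : B D, ∏ b' : B D, if b ≠ b' ∧ b.1 = b'.1 ∧ c b = j ∧ c b' = j then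
        (X (.inl b) : S D (ZZ D)) - X (.inl b') else 1 := by
    rw [Vale.Agent.P291.T.disc, Fintype.prod_sigma]
    refine Finset.prod_congr rfl fun i _ => Finset.prod_congr rfl fun r _ => ?_
    rw [Fintype.prod_sigma, Finset.prod_eq_single i]
    · refine Finset.prod_congr rfl fun s _ => ?_
      refine if_congr ?_ rfl rfl
      constructor
      · rintro ⟨h1, h2, h3⟩
        exact ⟨fun h => h1 (eq_of_heq (Sigma.mk.inj h).2), rfl, h2, h3⟩
      · rintro ⟨h1, -, h2, h3⟩
        exact ⟨fun h => h1 (by rw [h]), h2, h3⟩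
    · intro i' _ hi
      refine Finset.prod_eq_one fun s _ => ?_
      rw [if_neg]
      rintro ⟨-, h, -⟩
      exact hi h.symm
    · intro h
      exact absurd (Finset.mem_univ i) h
  rw [h1, map_prod, rtm_prod c j hN, ddT, dd]
  · refine Finset.prod_congr rfl fun b _ => ?_
    rw [map_prod, rtm_prod c j hN]
    · refine Finset.prod_congr rfl fun b' _ => ?_
      by_cases h : b ≠ b' ∧ b.1 = b'.1
      · rw [if_pos ⟨fun h2 => h.1 (rtm_inj c j hN h2), h.2,
          rtm_mem c j hN b, rtm_mem c j hN b'⟩, if_pos ⟨h.1, h.2, trivial⟩, map_sub, rth_X, rth_X]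
        rfl
      · rw [if_neg, if_neg fun h2 => h ⟨h2.1, h2.2.1⟩, map_one]
        rintro ⟨h2, h3, -⟩
        exact h ⟨fun h4 => h2 (by rw [h4]), h3⟩
    · intro b' hb'
      rw [if_neg fun h => hb' h.2.2.2, map_one]
  · intro b hb
    rw [map_prod]
    refine Finset.prod_eq_one fun b' _ => ?_
    rw [if_neg fun h => hb h.2.2.1, map_one]

lemma wts_cut {A : Finset (B D)} (hA : ∀ b ∈ A, c b = j) :
    Vale.Agent.P291.T.wts D (fun b => (X (.inl b) : S D (ZZ D)))
      (fun a => X (.inr (.inl a))) (fun χ m => if m = 1 ∨ m = -1 then χ else 1)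
      (fun b => 3 * c b + if b ∈ A then 1 else 0) =
    (∏ p : B D, ∏ q : B D, if c p = j ∧ c q = j ∧ ¬ (p ∈ A ↔ q ∈ A) then hq D p q 0 else 1) *
      ∏ b, if c b = j ∧ b ∈ A ∧ j = 0 then zq D b 0 else 1 := by
  have key : ∀ p q : B D, ((3 * (c q : ℤ) + if q ∈ A then 1 else 0) -
      (3 * (c p : ℤ) + if p ∈ A then 1 else 0) = 1 ∨ (3 * (c q : ℤ) + if q ∈ A then 1 else 0) -
      (3 * (c p : ℤ) + if p ∈ A then 1 else 0) = -1) ↔
      (c p = j ∧ c q = j ∧ ¬ (p ∈ A ↔ q ∈ A)) := by
    intro p q
    by_cases hp : p ∈ A <;> by_cases hq : q ∈ A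
    · simp only [hp, hq, if_true, iff_self, not_true_eq_false, and_false, iff_false]
      omega
    · have := hA p hp
      simp only [hp, hq, if_true, if_false, iff_false, not_true_eq_false, not_false_eq_true,
        and_true]
      constructor
      · intro h
        constructor <;> omega
      · intro h
        omega
    · have := hA q hq
      simp only [hp, hq, if_true, if_false, iff_true, not_false_eq_true, and_true]
      constructor
      · intro h
        constructor <;> omega
      · intro h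
        omega
    · simp only [hp, hq, if_false, iff_self, not_true_eq_false, and_false, iff_false]
      omega
  rw [Vale.Agent.P291.T.wts]
  congr 1
  · have h := BM_prod_arrows D (fun a p q => if c p = j ∧ c q = j ∧ ¬ (p ∈ A ↔ q ∈ A) then
      (xq D q - xq D p + tv D a) else 1)
    have h1 : (∏ a, ∏ r : Fin (D.v (D.src a)), ∏ s : Fin (D.v (D.tgt a)),
        if (3 * (c ⟨D.tgt a, s⟩ : ℤ) + if (⟨D.tgt a, s⟩ : B D) ∈ A then 1 else 0) -
          (3 * (c ⟨D.src a, r⟩ : ℤ) + if (⟨D.src a, r⟩ : B D) ∈ A then 1 else 0) = 1 ∨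
          (3 * (c ⟨D.tgt a, s⟩ : ℤ) + if (⟨D.tgt a, s⟩ : B D) ∈ A then 1 else 0) -
          (3 * (c ⟨D.src a, r⟩ : ℤ) + if (⟨D.src a, r⟩ : B D) ∈ A then 1 else 0) = -1 then
          (X (.inl ⟨D.tgt a, s⟩) : S D (ZZ D)) - X (.inl ⟨D.src a, r⟩) + X (.inr (.inl (.inl a)))
          else 1) =
        ∏ a, ∏ r : Fin (D.v (D.src a)), ∏ s : Fin (D.v (D.tgt a)),
          if c ⟨D.src a, r⟩ = j ∧ c ⟨D.tgt a, s⟩ = j ∧
            ¬ ((⟨D.src a, r⟩ : B D) ∈ A ↔ (⟨D.tgt a, s⟩ : B D) ∈ A) then
            xq D ⟨D.tgt a, s⟩ - xq D ⟨D.src a, r⟩ + tv D a else 1 := by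
      refine Finset.prod_congr rfl fun a _ => Finset.prod_congr rfl fun r _ =>
        Finset.prod_congr rfl fun s _ => ?_
      exact if_congr (key _ _) rfl rfl
    refine h1.trans ?_
    rw [← h]
    refine Finset.prod_congr rfl fun p _ => Finset.prod_congr rfl fun q _ => ?_
    by_cases hl : c p = j ∧ c q = j ∧ ¬ (p ∈ A ↔ q ∈ A)
    · rw [if_pos hl, hq]
      refine Finset.prod_congr rfl fun a _ => ?_
      rw [if_pos hl, add_zero]
    · rw [if_neg hl]
      exact Finset.prod_eq_one fun a _ => if_neg hl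
  · rw [Fintype.prod_sigma]
    refine Finset.prod_congr rfl fun i _ => Finset.prod_congr rfl fun r _ => ?_
    by_cases hl : c ⟨i, r⟩ = j ∧ (⟨i, r⟩ : B D) ∈ A ∧ j = 0
    · rw [if_pos hl, zq]
      refine Finset.prod_congr rfl fun k _ => ?_
      rw [if_pos, add_zero]
      · rfl
      · simp only [hl.2.1, if_true, hl.1, hl.2.2]
        norm_num
    · rw [if_neg hl]
      refine Finset.prod_eq_one fun k _ => if_neg ?_
      by_cases hA' : (⟨i, r⟩ : B D) ∈ A
      · have h1 := hA _ hA'
        have h2 : j ≠ 0 := fun h => hl ⟨h1, hA', h⟩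
        simp only [hA', if_true]
        omega
      · simp only [hA', if_false]
        omega

lemma rt_ee (A : Finset (B D)) :
    (∏ p : B D, ∏ q : B D, if ¬ (p ∈ A ↔ q ∈ A) then hq D p q 0 else 1) =
    e (wX D) A * e (wX D) Aᶜ := by
  rw [e, e, compl_compl, ← Finset.prod_mul_prod_compl A]
  congr 1
  · refine Finset.prod_congr rfl fun p hp => ?_
    rw [← Finset.prod_mul_prod_compl A]
    rw [Finset.prod_eq_one fun q hq => ?_, one_mul]
    · refine Finset.prod_congr rfl fun q hq => ?_
      rw [Finset.mem_compl] at hq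
      rw [if_pos]
      · rfl
      · exact fun h => hq (h.1 hp)
    · rw [if_neg]
      exact fun h => h ⟨fun _ => hq, fun _ => hp⟩
  · refine Finset.prod_congr rfl fun p hp => ?_
    rw [Finset.mem_compl] at hp
    rw [← Finset.prod_mul_prod_compl A]
    rw [Finset.prod_eq_one (s := Aᶜ) fun q hq => ?_, mul_one]
    · refine Finset.prod_congr rfl fun q hq => ?_
      rw [if_pos]
      · rfl
      · exact fun h => hp (h.2 hq)
    · rw [Finset.mem_compl] at hq
      rw [if_neg]
      exact fun h => h ⟨fun h => absurd h hp, fun h => absurd h hq⟩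

lemma rt_zs (A : Finset (B D)) : zs (wX D) A = ∏ b, if b ∈ A then zq D b 0 else 1 := by
  rw [zs, Finset.prod_ite_mem, Finset.univ_inter]
  rfl

lemma rth_cut {A : Finset (B D)} (hA : ∀ b ∈ A, c b = j) :
    rth c j hN (Vale.Agent.P291.T.wts D (fun b => (X (.inl b) : S D (ZZ D)))
      (fun a => X (.inr (.inl a))) (fun χ m => if m = 1 ∨ m = -1 then χ else 1)
      (fun b => 3 * c b + if b ∈ A then 1 else 0)) =
    e (wX (sub D N)) (Finset.univ.filter fun b => rtm c j hN b ∈ A) *
      e (wX (sub D N)) (Finset.univ.filter fun b => rtm c j hN b ∈ A)ᶜ *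
      if j = 0 then zs (wX (sub D N)) (Finset.univ.filter fun b => rtm c j hN b ∈ A) else 1 := by
  rw [wts_cut c j hA, map_mul]
  congr 1
  · rw [← rt_ee, map_prod, rtm_prod c j hN]
    · refine Finset.prod_congr rfl fun p _ => ?_
      rw [map_prod, rtm_prod c j hN]
      · refine Finset.prod_congr rfl fun q _ => ?_
        by_cases h : rtm c j hN p ∈ A ↔ rtm c j hN q ∈ A
        · rw [if_neg fun h2 => h2.2.2 h, if_neg, map_one]
          intro h2
          apply h2
          simpa using h
        · rw [if_pos ⟨rtm_mem c j hN p, rtm_mem c j hN q, h⟩, if_pos, rth_hq]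
          intro h2
          apply h
          simpa using h2
      · intro q hq
        rw [if_neg fun h => hq h.2.1, map_one]
    · intro p hp
      rw [map_prod]
      refine Finset.prod_eq_one fun q _ => ?_
      rw [if_neg fun h => hp h.1, map_one]
  · rw [map_prod, rtm_prod c j hN]
    · by_cases hj : j = 0
      · rw [if_pos hj, rt_zs]
        refine Finset.prod_congr rfl fun b _ => ?_
        by_cases h : rtm c j hN b ∈ A
        · rw [if_pos ⟨rtm_mem c j hN b, h, hj⟩, if_pos (by simpa using h), rth_zq]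
        · rw [if_neg fun h2 => h h2.2.1, if_neg (by simpa using h), map_one]
      · rw [if_neg hj]
        refine Finset.prod_eq_one fun b _ => ?_
        rw [if_neg fun h => hj h.2.2, map_one]
    · intro b hb
      rw [if_neg fun h => hb h.1, map_one]

end retr

/-- retraction onto the variables of the class `j`: let `τ : B D → B (sub D N)` be a colour
preserving map which is a bijection from the class `j` of `c` to `B (sub D N)`. The
homomorphism `x b ↦ x (τ b)` (`b` in the class `j`), `x b ↦ 0` otherwise, flavors to flavors, maps the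
product of differences of the class `j` to `ddT` and the cut ideal of the class `j` to the cut ideal
(the weights which occur only involve the class `j`). So if the product of differences of the class
`j` is in the ideal of the cuts, so is `ddT`. For `j = 0`. -/
theorem retr_zero (c : B D → ℕ) {N : D.I → ℕ}
    (hN : typ D (Finset.univ.filter fun b => c b = 0) = N)
    (h : Vale.Agent.P291.T.disc D (fun b => (X (.inl b) : S D (ZZ D))) c 0 ∈
      Vale.Agent.P291.T.cut D (fun b => X (.inl b)) c 0 fun a => X (.inr (.inl a))) :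
    ¬ FrRoot D N := by
  rw [FrRoot, not_not, ← rth_disc c 0 hN]
  have h1 := Ideal.mem_map_of_mem (rth c 0 hN).toRingHom h
  refine (Ideal.map_le_iff_le_comap.2 ?_ : Ideal.map (rth c 0 hN).toRingHom _ ≤ _) h1
  rw [Vale.Agent.P291.T.cut]
  refine Ideal.span_le.2 ?_
  rintro _ ⟨A, ⟨b, hb⟩, hA, -, rfl⟩
  refine Ideal.subset_span ⟨Finset.univ.filter fun b => rtm c 0 hN b ∈ A, ?_, ?_⟩
  · obtain ⟨b', rfl⟩ := rtm_surj c 0 hN (hA b hb)
    exact ⟨b', by simpa using hb⟩
  · refine (rth_cut c 0 hN hA).trans ?_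
    rw [if_pos rfl]

/-- the same for `j ≠ 0` -/
theorem retr_pos (c : B D → ℕ) {j : ℕ} (hj : j ≠ 0) {N : D.I → ℕ}
    (hN : typ D (Finset.univ.filter fun b => c b = j) = N)
    (h : Vale.Agent.P291.T.disc D (fun b => (X (.inl b) : S D (ZZ D))) c j ∈
      Vale.Agent.P291.T.cut D (fun b => X (.inl b)) c j fun a => X (.inr (.inl a))) :
    ¬ Root D N := by
  rw [Root, not_not, ← rth_disc c j hN]
  have h1 := Ideal.mem_map_of_mem (rth c j hN).toRingHom h
  refine (Ideal.map_le_iff_le_comap.2 ?_ : Ideal.map (rth c j hN).toRingHom _ ≤ _) h1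
  rw [Vale.Agent.P291.T.cut]
  refine Ideal.span_le.2 ?_
  rintro _ ⟨A, ⟨b, hb⟩, hA, h2, rfl⟩
  refine Ideal.subset_span ⟨Finset.univ.filter fun b => rtm c j hN b ∈ A, ?_, ?_, ?_⟩
  · obtain ⟨b', rfl⟩ := rtm_surj c j hN (hA b hb)
    exact ⟨b', by simpa using hb⟩
  · rcases h2 with h2 | ⟨b1, hb1, hc1⟩
    · exact absurd h2 hj
    · obtain ⟨b', rfl⟩ := rtm_surj c j hN hc1
      intro h3
      have h4 : b' ∈ Finset.univ.filter fun b => rtm c j hN b ∈ A := by
        rw [h3]
        exact Finset.mem_univ _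
      exact hb1 (by simpa using h4)
  · refine (rth_cut c j hN hA).trans ?_
    rw [if_neg hj, mul_one]

end Vale.Agent.P291.H.N
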