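import Vale.Agent.P291.N.Ind
import Vale.Agent.P291.N.Retr

set_option autoImplicit false
set_option linter.unusedSectionVars false

/-! Regularity in terms of colourings implies regularity in terms of types. -/

namespace Vale.Agent.P291.H.N

open MvPolynomial Vale.Agent.P291.G Vale.Agent.P291.H.M

variable (D : QData)

lemma exists_sub_typ {A : Finset (B D)} {n : D.I → ℕ} (h : n ≤ typ D A) :
    ∃ A₁ ⊆ A, typ D A₁ = n := by
  classical
  have h1 : ∀ i, ∃ s ⊆ A.filter (fun b => b.1 = i), s.card = n i := fun i =>
    Finset.exists_subset_card_eq (h i)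
  choose s hs hc using h1
  refine ⟨Finset.univ.biUnion s, ?_, ?_⟩
  · intro b hb
    obtain ⟨i, _, hi⟩ := Finset.mem_biUnion.1 hb
    exact (Finset.mem_filter.1 (hs i hi)).1
  · funext i
    rw [typ, ← hc i]
    congr 1
    ext b
    rw [Finset.mem_filter, Finset.mem_biUnion]
    constructor
    · rintro ⟨⟨j, _, hj⟩, hb⟩
      have : j = i := by rw [← (Finset.mem_filter.1 (hs j hj)).2, hb]
      rwa [← this]
    · intro hb
      exact ⟨⟨i, Finset.mem_univ _, hb⟩, (Finset.mem_filter.1 (hs i hb)).2⟩

lemma typ_sdiff_add {A A₁ : Finset (B D)} (h : A₁ ⊆ A) :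
    typ D A₁ + typ D (A \ A₁) = typ D A := by
  have h1 := typ_union_inter D A₁ (A \ A₁)
  rw [Finset.union_sdiff_of_subset h, Finset.inter_sdiff_self, typ_empty, add_zero] at h1
  exact h1.symm

lemma exists_col {ν : D.I → ℤ} {m : D.I → ℕ} (h : Sm D ν m) : ∀ A : Finset (B D), typ D A = m →
    ∃ c : B D → ℕ, (∀ b, b ∈ A ↔ c b ≠ 0) ∧ ∀ j, j ≠ 0 → (∀ b, c b ≠ j) ∨
      (Root D (typ D (Finset.univ.filter fun b => c b = j)) ∧
        ∑ i, ν i * (typ D (Finset.univ.filter fun b => c b = j) i : ℤ) = 0) := by
  induction h with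
  | zero =>
    intro A hA
    refine ⟨fun _ => 0, fun b => ?_, fun j hj => Or.inl fun b h => hj h.symm⟩
    rw [typ_eq_zero D hA]
    simp
  | add n m hn hr hm hν ih =>
    intro A hA
    obtain ⟨A₁, hA₁, ht⟩ := exists_sub_typ D (A := A) (n := n) (by rw [hA]; exact le_self_add)
    obtain ⟨c, hc1, hc2⟩ := ih A₁ ht
    have ht2 : typ D (A \ A₁) = m := by
      have h1 := typ_sdiff_add D hA₁
      rw [ht, hA] at h1
      exact add_left_cancel h1
    obtain ⟨k, hk⟩ : ∃ k : ℕ, ∀ b, c b < k :=
      ⟨(∑ b, c b) + 1, fun b => Nat.lt_succ_of_le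
        (Finset.single_le_sum (f := c) (fun _ _ => Nat.zero_le _) (Finset.mem_univ b))⟩
    have key0 : ∀ b, b ∈ A₁ → (if b ∈ A₁ then c b else if b ∈ A then k + 1 else 0) = c b :=
      fun b hb => if_pos hb
    have key1 : ∀ b, b ∉ A₁ → b ∈ A →
        (if b ∈ A₁ then c b else if b ∈ A then k + 1 else 0) = k + 1 :=
      fun b hb hb' => by rw [if_neg hb, if_pos hb']
    have key2 : ∀ b, b ∉ A → (if b ∈ A₁ then c b else if b ∈ A then k + 1 else 0) = 0 :=
      fun b hb => by rw [if_neg (fun h => hb (hA₁ h)), if_neg hb]
    refine ⟨fun b => if b ∈ A₁ then c b else if b ∈ A then k + 1 else 0, fun b => ?_,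
      fun j hj => ?_⟩
    · show _ ↔ (if b ∈ A₁ then c b else if b ∈ A then k + 1 else 0) ≠ 0
      by_cases h1 : b ∈ A₁
      · rw [key0 b h1]
        exact ⟨fun _ => (hc1 b).1 h1, fun _ => hA₁ h1⟩
      · by_cases h2 : b ∈ A
        · rw [key1 b h1 h2]
          exact ⟨fun _ => Nat.succ_ne_zero k, fun _ => h2⟩
        · rw [key2 b h2]
          exact ⟨fun h => absurd h h2, fun h => absurd rfl h⟩
    · by_cases hjk : j = k + 1
      · right
        have he : (Finset.univ.filter fun b =>
            (if b ∈ A₁ then c b else if b ∈ A then k + 1 else 0) = j) = A \ A₁ := by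
          ext b
          rw [Finset.mem_filter, Finset.mem_sdiff, hjk]
          by_cases h1 : b ∈ A₁
          · rw [key0 b h1]
            exact ⟨fun h => absurd h.2 (by have := hk b; omega), fun h => absurd h1 h.2⟩
          · by_cases h2 : b ∈ A
            · rw [key1 b h1 h2]
              exact ⟨fun _ => ⟨h2, h1⟩, fun _ => ⟨Finset.mem_univ _, rfl⟩⟩
            · rw [key2 b h2]
              exact ⟨fun h => absurd h.2.symm (Nat.succ_ne_zero k), fun h => absurd h.1 h2⟩
        rw [he, ht2]
        exact ⟨hr, hν⟩
      · rcases hc2 j hj with h3 | h3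
        · left
          intro b
          show (if b ∈ A₁ then c b else if b ∈ A then k + 1 else 0) ≠ j
          by_cases h1 : b ∈ A₁
          · rw [key0 b h1]
            exact h3 b
          · by_cases h2 : b ∈ A
            · rw [key1 b h1 h2]
              exact fun h => hjk h.symm
            · rw [key2 b h2]
              exact hj.symm
        · right
          have he : (Finset.univ.filter fun b =>
              (if b ∈ A₁ then c b else if b ∈ A then k + 1 else 0) = j) =
              Finset.univ.filter fun b => c b = j := by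
            ext b
            rw [Finset.mem_filter, Finset.mem_filter]
            by_cases h1 : b ∈ A₁
            · rw [key0 b h1]
            · have h4 : c b = 0 := by
                by_contra h
                exact h1 ((hc1 b).2 h)
              by_cases h2 : b ∈ A
              · rw [key1 b h1 h2, h4]
                exact ⟨fun h => absurd h.2.symm hjk, fun h => absurd h.2.symm hj⟩
              · rw [key2 b h2, h4]
          rw [he]
          exact h3

lemma sum_col (ν : D.I → ℤ) (A : Finset (B D)) :
    ∑ b, (if b ∈ A then ν b.1 else 0) = ∑ i, ν i * (typ D A i : ℤ) := by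
  rw [← Finset.sum_filter, Finset.filter_mem_eq_inter, Finset.univ_inter]
  rw [← Finset.sum_fiberwise_of_maps_to (s := A) (t := Finset.univ) (g := fun b : B D => b.1)
    (fun _ _ => Finset.mem_univ _)]
  refine Finset.sum_congr rfl fun i _ => ?_
  rw [Finset.sum_congr rfl (fun b hb => by rw [(Finset.mem_filter.1 hb).2]), Finset.sum_const,
    typ, nsmul_eq_mul, mul_comm]

/-- Proof: let `FrRoot n₀`, `Sm m`, `n₀ + m = v`. `m` is the sum of a list of roots `≠ 0` orthogonal
to `ν`. Choose a colouring `c` whose classes `0, 1, 2, ...` have the types `n₀`, and the roots of the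
list (e.g. by induction on `Sm`: for every `A` with `typ A = m` there is `c` supported on `A` whose
classes `j ≠ 0` are empty or roots orthogonal to `ν`). By `retr_zero` and `retr_pos` (an empty class
`j ≠ 0` has no cuts, and `1 ∉ ⊥`) the colouring satisfies the hypotheses of `Regular`, so `c = 0` and
`m = 0`. -/
theorem HR_of_regular {ν : D.I → ℤ} (h : Vale.Agent.P291.T.Regular D ν) : HR D ν := by
  intro n₀ m hF hS hsum
  obtain ⟨A, _, hA⟩ := exists_sub_typ D (A := Finset.univ) (n := m)
    (by rw [typ_univ, ← hsum]; exact le_add_self)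
  obtain ⟨c, hc1, hc2⟩ := exists_col D hS A hA
  have hc : ∀ b, c b = 0 := by
    refine h c (fun j hj => ?_) (fun j => ?_)
    · rcases hc2 j hj with h3 | h3
      · exact Finset.sum_eq_zero fun b _ => if_neg (h3 b)
      · refine Eq.trans ?_ ((sum_col D ν _).trans h3.2)
        refine Finset.sum_congr rfl fun b _ => ?_
        have h5 : b ∈ (Finset.univ.filter fun b => c b = j) ↔ c b = j := by
          rw [Finset.mem_filter]
          exact ⟨fun h => h.2, fun h => ⟨Finset.mem_univ _, h⟩⟩
        by_cases h4 : c b = j
        · rw [if_pos h4, if_pos (h5.2 h4)]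
        · rw [if_neg h4, if_neg (fun h6 => h4 (h5.1 h6))]
    · intro hd
      by_cases hj : j = 0
      · subst hj
        refine retr_zero D c (N := n₀) ?_ hd hF
        have h5 : (Finset.univ.filter fun b => c b = 0) = Aᶜ := by
          ext b
          rw [Finset.mem_filter, Finset.mem_compl, hc1 b]
          simp
        rw [h5, typ_compl, hA, ← hsum]
        exact add_tsub_cancel_right n₀ m
      · rcases hc2 j hj with h3 | h3
        · have h6 : Vale.Agent.P291.T.disc D (fun b => (X (.inl b) : S D (ZZ D))) c j = 1 := by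
            unfold Vale.Agent.P291.T.disc
            refine Finset.prod_eq_one fun i _ => Finset.prod_eq_one fun r _ =>
              Finset.prod_eq_one fun s _ => if_neg fun h7 => h3 _ h7.2.1
          have h7 : Vale.Agent.P291.T.cut D (fun b => (X (.inl b) : S D (ZZ D))) c j
              (fun a => X (.inr (.inl a))) = ⊥ := by
            unfold Vale.Agent.P291.T.cut
            rw [Ideal.span_eq_bot]
            rintro p ⟨A', ⟨b, hb⟩, h8, _⟩
            exact absurd (h8 b hb) (h3 b)
          have h9 := hd
          erw [h6, h7, Ideal.mem_bot] at h9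
          exact one_ne_zero h9
        · exact retr_pos D c hj rfl hd h3.1
  have : A = ∅ := by
    ext b
    rw [hc1 b]
    simp [hc b]
  rw [← hA, this, typ_empty]

end Vale.Agent.P291.H.N
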