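import Vale.Agent.P291.N.Loc

set_option autoImplicit false
set_option linter.unusedSectionVars false

/-! The substitution `ρ : B (sub D N) → B D` attached to an exponent `l`. -/

namespace Vale.Agent.P291.H.N

open MvPolynomial Vale.Agent.P291.G Vale.Agent.P291.H.M

variable {D : QData} {Z : Type} {N : D.I → ℕ}

/-- `ρ` preserves colours, takes the value `a` exactly `l a` times, and is injective on `C'` with
image the support of `l` -/
structure Rho (ρ : B (sub D N) → B D) (C' : Finset (B (sub D N))) (l : B D → ℤ) : Prop where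
  col : ∀ b, (ρ b).1 = b.1
  cnt : ∀ a, ((Finset.univ.filter fun b => ρ b = a).card : ℤ) = l a
  inj : ∀ b ∈ C', ∀ c ∈ C', ρ b = ρ c → b = c
  mem : ∀ a, l a ≠ 0 → ∃ b ∈ C', ρ b = a

/-- the exponent for `sub D N` -/
def pull (ρ : B (sub D N) → B D) (C' : Finset (B (sub D N))) (l : B D → ℤ) (b : B (sub D N)) : ℤ :=
  if b ∈ C' then l (ρ b) else 0

/-- Proof: the pairs `(a, k)`, `a : B D`, `k : Fin (l a).toNat`, with `a.1 = i` are `N i` many, like
the elements of `B (sub D N)` of colour `i`: choose a colour preserving bijection (see `exists_io` in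
M/Iota.lean) and let `ρ` be its first component, `C'` the set of the elements with second component
`0`. -/
theorem exists_rho {l : B D → ℤ} (h0 : ∀ a, 0 ≤ l a)
    (hN : ∀ i, ∑ a : B D, (if a.1 = i then l a else 0) = (N i : ℤ)) :
    ∃ (ρ : B (sub D N) → B D) (C' : Finset (B (sub D N))), Rho ρ C' l := by
  classical
  have hcard : ∀ i : D.I, Nat.card {x : B (sub D N) // x.1 = i} =
      Nat.card {y : (Σ a : B D, Fin (l a).toNat) // y.1.1 = i} := by
    intro i
    have h1 : Nat.card {x : B (sub D N) // x.1 = i} = N i := by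
      have e1 : {x : B (sub D N) // x.1 = i} ≃ Fin (N i) :=
        Equiv.sigmaSubtype (β := fun i : D.I => Fin (N i)) i
      rw [Nat.card_congr e1, Nat.card_eq_fintype_card, Fintype.card_fin]
    have h2 : Nat.card {y : (Σ a : B D, Fin (l a).toNat) // y.1.1 = i} =
        ∑ a : B D, (if a.1 = i then (l a).toNat else 0) := by
      have e2 : {y : (Σ a : B D, Fin (l a).toNat) // y.1.1 = i} ≃
          (Σ a : B D, {_k : Fin (l a).toNat // a.1 = i}) :=
        { toFun := fun y => ⟨y.1.1, y.1.2, y.2⟩
          invFun := fun z => ⟨⟨z.1, z.2.1⟩, z.2.2⟩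
          left_inv := fun _ => rfl
          right_inv := fun _ => rfl }
      rw [Nat.card_congr e2, Nat.card_sigma]
      refine Finset.sum_congr rfl fun a _ => ?_
      by_cases h : a.1 = i
      · rw [if_pos h, Nat.card_eq_fintype_card, Fintype.card_subtype]
        simp [h]
      · rw [if_neg h, Nat.card_eq_fintype_card, Fintype.card_subtype]
        simp [h]
    rw [h1, h2]
    have h3 := hN i
    have h4 : ((∑ a : B D, (if a.1 = i then (l a).toNat else 0) : ℕ) : ℤ) = (N i : ℤ) := by
      rw [← h3, Nat.cast_sum]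
      refine Finset.sum_congr rfl fun a _ => ?_
      split_ifs
      · exact Int.toNat_of_nonneg (h0 a)
      · rfl
    exact (Nat.cast_injective (R := ℤ) h4).symm
  have he : ∀ i : D.I, Nonempty ({x : B (sub D N) // x.1 = i} ≃
      {y : (Σ a : B D, Fin (l a).toNat) // y.1.1 = i}) := fun i =>
    ⟨(Finite.card_eq.1 (hcard i)).some⟩
  let e : B (sub D N) ≃ (Σ a : B D, Fin (l a).toNat) :=
    Equiv.ofFiberEquiv (f := fun x : B (sub D N) => x.1)
      (g := fun y : (Σ a : B D, Fin (l a).toNat) => y.1.1) fun i => (he i).some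
  have hecol : ∀ x, (e x).1.1 = x.1 := fun x =>
    Equiv.ofFiberEquiv_map (f := fun x : B (sub D N) => x.1)
      (g := fun y : (Σ a : B D, Fin (l a).toNat) => y.1.1) (fun i => (he i).some) x
  refine ⟨fun b => (e b).1, Finset.univ.filter fun b => ((e b).2 : ℕ) = 0, hecol, ?_, ?_, ?_⟩
  · intro a
    have h1 : (Finset.univ.filter fun b : B (sub D N) => (e b).1 = a).card =
        (Finset.univ.filter fun y : (Σ a : B D, Fin (l a).toNat) => y.1 = a).card := by
      refine Finset.card_bij (fun b _ => e b) (fun b hb => ?_) (fun b _ c _ h => e.injective h)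
        (fun y hy => ⟨e.symm y, ?_, e.apply_symm_apply y⟩)
      · simpa using hb
      · simpa using hy
    have h2 : (Finset.univ.filter fun y : (Σ a : B D, Fin (l a).toNat) => y.1 = a).card =
        (l a).toNat := by
      rw [← Fintype.card_subtype, Fintype.card_congr
        (Equiv.sigmaSubtype (β := fun a : B D => Fin (l a).toNat) a), Fintype.card_fin]
    rw [h1, h2]
    exact Int.toNat_of_nonneg (h0 a)
  · intro b hb c hc h
    have hb' : ((e b).2 : ℕ) = 0 := (Finset.mem_filter.1 hb).2
    have hc' : ((e c).2 : ℕ) = 0 := (Finset.mem_filter.1 hc).2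
    apply e.injective
    have key : ∀ y z : (Σ a : B D, Fin (l a).toNat), y.1 = z.1 → (y.2 : ℕ) = 0 →
        (z.2 : ℕ) = 0 → y = z := by
      rintro ⟨a, j⟩ ⟨a', j'⟩ h1 h2 h3
      obtain rfl : a = a' := h1
      have h4 : j = j' := Fin.ext (h2.trans h3.symm)
      rw [h4]
    exact key _ _ h hb' hc'
  · intro a ha
    have h1 : 0 < (l a).toNat := by
      have := h0 a
      omega
    refine ⟨e.symm ⟨a, ⟨0, h1⟩⟩, ?_, ?_⟩
    · rw [Finset.mem_filter]
      refine ⟨Finset.mem_univ _, ?_⟩
      rw [Equiv.apply_symm_apply]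
    · rw [Equiv.apply_symm_apply]

section
variable {ρ : B (sub D N) → B D} {C' : Finset (B (sub D N))} {l : B D → ℤ}

lemma rho_ne (h : Rho ρ C' l) (b : B (sub D N)) : l (ρ b) ≠ 0 := by
  intro h0
  have h1 := h.cnt (ρ b)
  rw [h0] at h1
  have h2 : (Finset.univ.filter fun c => ρ c = ρ b).card = 0 := by exact_mod_cast h1
  rw [Finset.card_eq_zero] at h2
  have h3 : b ∈ Finset.univ.filter fun c => ρ c = ρ b :=
    Finset.mem_filter.2 ⟨Finset.mem_univ _, rfl⟩
  rw [h2] at h3
  exact Finset.notMem_empty _ h3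

lemma rho_image (h : Rho ρ C' l) : C'.image ρ = Finset.univ.filter fun a => l a ≠ 0 := by
  ext a
  rw [Finset.mem_image, Finset.mem_filter]
  constructor
  · rintro ⟨b, _, rfl⟩
    exact ⟨Finset.mem_univ _, rho_ne h b⟩
  · rintro ⟨_, ha⟩
    exact h.mem a ha

lemma rho_typ (h : Rho ρ C' l) {A : Finset (B (sub D N))} (hA : A ⊆ C') :
    typ D (A.image ρ) = typ (sub D N) A := by
  funext i
  rw [typ, typ, Finset.filter_image, Finset.card_image_of_injOn]
  · refine congrArg Finset.card (Finset.filter_congr fun b _ => ?_)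
    rw [h.col b]
  · intro b hb c hc hbc
    exact h.inj b (hA (Finset.mem_filter.1 (Finset.mem_coe.1 hb)).1) c
      (hA (Finset.mem_filter.1 (Finset.mem_coe.1 hc)).1) hbc

lemma rho_ind_aux (h : Rho ρ C' l) {A : Finset (B (sub D N))} (hA : A ⊆ C')
    {b : B (sub D N)} (hb : b ∈ C') : ind D (A.image ρ) (ρ b) = ind (sub D N) A b := by
  unfold ind
  refine if_congr ?_ rfl rfl
  rw [Finset.mem_image]
  constructor
  · rintro ⟨c, hc, hcb⟩
    rw [← h.inj c (hA hc) b hb hcb]
    exact hc
  · intro hb
    exact ⟨b, hb, rfl⟩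

lemma rho_ind (h : Rho ρ C' l) {m : ℕ} {A : Fin m → Finset (B (sub D N))} (hA : ∀ t, A t ⊆ C') :
    ∑ t, ind D ((A t).image ρ) = l ↔ ∑ t, ind (sub D N) (A t) = pull ρ C' l := by
  constructor
  · intro h1
    funext b
    rw [Finset.sum_apply, pull]
    by_cases hb : b ∈ C'
    · rw [if_pos hb, ← h1, Finset.sum_apply]
      exact Finset.sum_congr rfl fun t _ => (rho_ind_aux h (hA t) hb).symm
    · rw [if_neg hb]
      refine Finset.sum_eq_zero fun t _ => ?_
      exact if_neg fun h2 => hb (hA t h2)
  · intro h1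
    funext a
    rw [Finset.sum_apply]
    by_cases ha : l a = 0
    · rw [ha]
      refine Finset.sum_eq_zero fun t _ => ?_
      refine if_neg fun h2 => ?_
      obtain ⟨b, _, rfl⟩ := Finset.mem_image.1 h2
      exact rho_ne h b ha
    · obtain ⟨b, hb, rfl⟩ := h.mem a ha
      have h2 := congrFun h1 b
      rw [Finset.sum_apply, pull, if_pos hb] at h2
      rw [← h2]
      exact Finset.sum_congr rfl fun t _ => rho_ind_aux h (hA t) hb

open Classical in
/-- the tuples with sum `l` correspond to the tuples with sum `pull ρ C' l` (these are subsets of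
`C'`, and tuples with sum `l` are subsets of the support of `l`, the image of `C'`) -/
theorem rho_sum (h : Rho ρ C' l) {m : ℕ} (n : ℕ → D.I → ℕ) {M : Type} [AddCommMonoid M]
    (F : (Fin m → Finset (B D)) → M) :
    (∑ A : Fin m → Finset (B D),
      if (∀ t : Fin m, typ D (A t) = n t) ∧ ∑ t, ind D (A t) = l then F A else 0) =
    ∑ A : Fin m → Finset (B (sub D N)),
      if (∀ t : Fin m, typ (sub D N) (A t) = n t) ∧ ∑ t, ind (sub D N) (A t) = pull ρ C' l then
        F (fun t => (A t).image ρ) else 0 := by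
  have him : ∀ A : Fin m → Finset (B D), ∑ t, ind D (A t) = l → ∀ t,
      ((C'.filter fun b => ρ b ∈ A t).image ρ) = A t := by
    intro A hA t
    ext a
    rw [Finset.mem_image]
    constructor
    · rintro ⟨b, hb, rfl⟩
      exact (Finset.mem_filter.1 hb).2
    · intro ha
      have hl : l a ≠ 0 := by
        have h1 : l a = ∑ t, ind D (A t) a := by
          rw [← hA, Finset.sum_apply]
        have h2 : ind D (A t) a ≤ ∑ t, ind D (A t) a :=
          Finset.single_le_sum (f := fun t => ind D (A t) a)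
            (fun s _ => by unfold ind; split_ifs <;> norm_num) (Finset.mem_univ t)
        have h3 : ind D (A t) a = 1 := if_pos ha
        omega
      obtain ⟨b, hb, hba⟩ := h.mem a hl
      exact ⟨b, Finset.mem_filter.2 ⟨hb, hba ▸ ha⟩, hba⟩
  have hfil : ∀ A : Fin m → Finset (B D), ∀ t, (C'.filter fun b => ρ b ∈ A t) ⊆ C' :=
    fun A t => Finset.filter_subset _ _
  have hsub : ∀ A : Fin m → Finset (B (sub D N)),
      ∑ t, ind (sub D N) (A t) = pull ρ C' l → ∀ t, A t ⊆ C' := by
    intro A hA t b hb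
    by_contra hbC
    have h1 : ∑ t, ind (sub D N) (A t) b = 0 := by
      rw [← Finset.sum_apply, hA]
      exact if_neg hbC
    have h2 : ind (sub D N) (A t) b ≤ ∑ t, ind (sub D N) (A t) b :=
      Finset.single_le_sum (f := fun t => ind (sub D N) (A t) b)
        (fun s _ => by unfold ind; split_ifs <;> norm_num) (Finset.mem_univ t)
    have h3 : ind (sub D N) (A t) b = 1 := if_pos hb
    omega
  rw [← Finset.sum_filter, ← Finset.sum_filter]
  refine Finset.sum_nbij' (fun A t => C'.filter fun b => ρ b ∈ A t)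
    (fun A t => (A t).image ρ) ?_ ?_ ?_ ?_ ?_
  · intro A hA
    obtain ⟨h1, h2⟩ := (Finset.mem_filter.1 hA).2
    refine Finset.mem_filter.2 ⟨Finset.mem_univ _, fun t => ?_, ?_⟩
    · rw [← rho_typ h (hfil A t), him A h2 t]
      exact h1 t
    · refine (rho_ind h (hfil A)).1 ?_
      rw [← h2]
      exact Finset.sum_congr rfl fun t _ => by rw [him A h2 t]
  · intro A hA
    obtain ⟨h1, h2⟩ := (Finset.mem_filter.1 hA).2
    refine Finset.mem_filter.2 ⟨Finset.mem_univ _, fun t => ?_, ?_⟩
    · rw [rho_typ h (hsub A h2 t)]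
      exact h1 t
    · exact (rho_ind h (hsub A h2)).2 h2
  · intro A hA
    obtain ⟨h1, h2⟩ := (Finset.mem_filter.1 hA).2
    exact funext fun t => him A h2 t
  · intro A hA
    obtain ⟨h1, h2⟩ := (Finset.mem_filter.1 hA).2
    funext t
    ext b
    rw [Finset.mem_filter, Finset.mem_image]
    constructor
    · rintro ⟨hb, c, hc, hcb⟩
      rw [← h.inj c (hsub A h2 t hc) b hb hcb]
      exact hc
    · intro hb
      exact ⟨hsub A h2 t hb, b, hb, rfl⟩
  · intro A hA
    obtain ⟨h1, h2⟩ := (Finset.mem_filter.1 hA).2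
    exact congrArg F (funext fun t => (him A h2 t).symm)

lemma rho_sub (h : Rho ρ C' l) {m : ℕ} {A : Fin m → Finset (B (sub D N))}
    (hA : ∑ t, ind (sub D N) (A t) = pull ρ C' l) (t : Fin m) : A t ⊆ C' := by
  intro b hb
  by_contra hbC
  have h1 : ∑ t, ind (sub D N) (A t) b = 0 := by
    rw [← Finset.sum_apply, hA]
    exact if_neg hbC
  have h2 : ind (sub D N) (A t) b ≤ ∑ t, ind (sub D N) (A t) b :=
    Finset.single_le_sum (f := fun t => ind (sub D N) (A t) b)
      (fun s _ => by unfold ind; split_ifs <;> norm_num) (Finset.mem_univ t)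
  have h3 : ind (sub D N) (A t) b = 1 := if_pos hb
  omega

/-- `pull = ind univ` iff `l` is the indicator function of a set (then `C' = univ`) of type `N` -/
lemma pull_iff (h : Rho ρ C' l) : pull ρ C' l = ind (sub D N) Finset.univ ↔
    ∃ A : Finset (B D), l = ind D A := by
  classical
  constructor
  · intro hp
    have hb : ∀ b : B (sub D N), l (ρ b) = 1 := by
      intro b
      have h1 := congrFun hp b
      have h2 : ind (sub D N) Finset.univ b = 1 := if_pos (Finset.mem_univ b)
      rw [h2] at h1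
      unfold pull at h1
      split_ifs at h1
      · exact h1
      · omega
    refine ⟨Finset.univ.filter fun a => l a ≠ 0, funext fun a => ?_⟩
    unfold ind
    by_cases ha : l a = 0
    · rw [if_neg (by rw [Finset.mem_filter]; exact fun h1 => h1.2 ha), ha]
    · rw [if_pos (by rw [Finset.mem_filter]; exact ⟨Finset.mem_univ _, ha⟩)]
      obtain ⟨b, -, rfl⟩ := h.mem a ha
      exact hb b
  · rintro ⟨A, rfl⟩
    funext b
    have h1 := h.cnt (ρ b)
    have h2 : b ∈ Finset.univ.filter fun c => ρ c = ρ b :=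
      Finset.mem_filter.2 ⟨Finset.mem_univ _, rfl⟩
    have h3 : 0 < (Finset.univ.filter fun c => ρ c = ρ b).card := Finset.card_pos.2 ⟨b, h2⟩
    have h4 : ind D A (ρ b) = 1 := by
      have h5 : ind D A (ρ b) = 1 ∨ ind D A (ρ b) = 0 := by
        unfold ind
        split_ifs
        · exact Or.inl rfl
        · exact Or.inr rfl
      rcases h5 with h5 | h5
      · exact h5
      · rw [h5] at h1
        omega
    have h6 : (Finset.univ.filter fun c => ρ c = ρ b).card = 1 := by
      rw [h4] at h1
      exact_mod_cast h1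
    obtain ⟨b', hb', hbb⟩ := h.mem (ρ b) (by rw [h4]; norm_num)
    have h7 : b' ∈ Finset.univ.filter fun c => ρ c = ρ b :=
      Finset.mem_filter.2 ⟨Finset.mem_univ _, hbb⟩
    have h8 : b' = b := Finset.card_le_one.1 h6.le b' h7 b h2
    have h9 : b ∈ C' := h8 ▸ hb'
    have h10 : ind (sub D N) Finset.univ b = 1 := if_pos (Finset.mem_univ b)
    rw [h10]
    unfold pull
    rw [if_pos h9, h4]

end

end Vale.Agent.P291.H.N
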