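import Vale.Agent.P291.N.Rho
import Vale.Agent.P291.M.Theta

set_option autoImplicit false
set_option linter.unusedSectionVars false

/-! The substitution `ρ`: evaluation of polynomials. -/

namespace Vale.Agent.P291.H.N

open MvPolynomial Vale.Agent.P291.G Vale.Agent.P291.H.M

variable {D : QData} {Z : Type} {N : D.I → ℕ}
variable {ρ : B (sub D N) → B D} {C' : Finset (B (sub D N))} {l : B D → ℤ}

lemma rn_xx (ρ : B (sub D N) → B D) (b : B (sub D N)) :
    rn Z ρ (xx (sub D N) Z b) = xx D Z (ρ b) := by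
  rw [rn, xx, rename_X]; rfl

lemma RhoE_injOn (h : Rho ρ C' l) {A : Finset (B (sub D N))} (hA : A ⊆ C') :
    Set.InjOn ρ (A : Set (B (sub D N))) := fun b hb c hc hbc =>
  h.inj b (hA hb) c (hA hc) hbc

lemma RhoE_prod (h : Rho ρ C' l) {A : Finset (B (sub D N))} (hA : A ⊆ C') (F : B D → S D Z) :
    ∏ a ∈ A.image ρ, F a = ∏ b ∈ A, F (ρ b) :=
  Finset.prod_image fun _ hb _ hc hbc => RhoE_injOn h hA hb hc hbc

lemma RhoE_sum (h : Rho ρ C' l) {A : Finset (B (sub D N))} (hA : A ⊆ C') (F : B D → S D Z) :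
    ∑ a ∈ A.image ρ, F a = ∑ b ∈ A, F (ρ b) :=
  Finset.sum_image fun _ hb _ hc hbc => RhoE_injOn h hA hb hc hbc

lemma RhoE_mem (h : Rho ρ C' l) {A : Finset (B (sub D N))} (hA : A ⊆ C') {b : B (sub D N)}
    (hb : b ∈ C') : ρ b ∈ A.image ρ ↔ b ∈ A := by
  rw [Finset.mem_image]
  constructor
  · rintro ⟨c, hc, hcb⟩
    rwa [← h.inj c (hA hc) b hb hcb]
  · intro hbA
    exact ⟨b, hbA, rfl⟩

lemma RhoE_ne (h : Rho ρ C' l) {b c : B (sub D N)} (hb : b ∈ C') (hc : c ∈ C') :
    (b ≠ c ∧ b.1 = c.1) ↔ (ρ b ≠ ρ c ∧ (ρ b).1 = (ρ c).1) := by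
  rw [h.col, h.col]
  refine and_congr_left fun _ => ?_
  exact ⟨fun h1 h2 => h1 (h.inj b hb c hc h2), fun h1 h2 => h1 (by rw [h2])⟩

lemma RhoE_univ (h : Rho ρ C' l) (F : B D → S D Z) :
    ∑ b, F (ρ b) = ∑ a, l a • F a := by
  rw [← Finset.sum_fiberwise Finset.univ ρ]
  refine Finset.sum_congr rfl fun a _ => ?_
  rw [← h.cnt a, natCast_zsmul, ← Finset.sum_const]
  refine Finset.sum_congr rfl fun b hb => ?_
  rw [(Finset.mem_filter.1 hb).2]

lemma RhoE_ps (h : Rho ρ C' l) (A : Finset (B (sub D N))) (i : D.I) (j : ℕ) :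
    rn Z ρ (ps (sub D N) Z A i j) =
      ∑ b ∈ A, (fun a : B D => if a.1 = i then xx D Z a ^ j else 0) (ρ b) := by
  rw [ps, map_sum]
  refine Finset.sum_congr rfl fun b _ => ?_
  simp only [h.col]
  rw [apply_ite (rn Z ρ), map_pow, map_zero, rn_xx]

lemma RhoE_ps_image (h : Rho ρ C' l) {A : Finset (B (sub D N))} (hA : A ⊆ C') (i : D.I) (j : ℕ) :
    rn Z ρ (ps (sub D N) Z A i j) = ps D Z (A.image ρ) i j := by
  rw [RhoE_ps h, ps]
  exact (RhoE_sum h hA (fun a : B D => if a.1 = i then xx D Z a ^ j else 0)).symm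

lemma rn_PiC (h : Rho ρ C' l) : rn Z ρ (PiC (sub D N) Z C') = PiC D Z (C'.image ρ) := by
  rw [PiC, PiC, map_prod, RhoE_prod h (Finset.Subset.refl _)]
  refine Finset.prod_congr rfl fun b hb => ?_
  rw [map_prod, RhoE_prod h (Finset.Subset.refl _)]
  refine Finset.prod_congr rfl fun c hc => ?_
  rw [apply_ite (rn Z ρ), map_sub, map_one, rn_xx, rn_xx]
  exact if_congr (RhoE_ne h hb hc) rfl rfl

lemma RhoE_qC (h : Rho ρ C' l) {A : Finset (B (sub D N))} (hA : A ⊆ C') :
    rn Z ρ (qC (sub D N) Z C' A) = qC D Z (C'.image ρ) (A.image ρ) := by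
  rw [qC, qC, map_prod, RhoE_prod h (Finset.Subset.refl _)]
  refine Finset.prod_congr rfl fun b hb => ?_
  rw [map_prod, RhoE_prod h (Finset.Subset.refl _)]
  refine Finset.prod_congr rfl fun c hc => ?_
  rw [apply_ite (rn Z ρ), map_sub, map_one, rn_xx, rn_xx]
  refine if_congr ?_ rfl rfl
  rw [RhoE_ne h hb hc, RhoE_mem h hA hb, RhoE_mem h hA hc]

lemma RhoE_sdiff (h : Rho ρ C' l) {A : Finset (B (sub D N))} (hA : A ⊆ C') :
    C'.image ρ \ A.image ρ = (C' \ A).image ρ := by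
  ext a
  rw [Finset.mem_sdiff]
  constructor
  · rintro ⟨h1, h2⟩
    obtain ⟨b, hb, rfl⟩ := Finset.mem_image.1 h1
    rw [RhoE_mem h hA hb] at h2
    exact Finset.mem_image.2 ⟨b, Finset.mem_sdiff.2 ⟨hb, h2⟩, rfl⟩
  · intro h1
    obtain ⟨b, hb, rfl⟩ := Finset.mem_image.1 h1
    have hb' := Finset.mem_sdiff.1 hb
    rw [RhoE_mem h hA hb'.1]
    exact ⟨Finset.mem_image.2 ⟨b, hb'.1, rfl⟩, hb'.2⟩

/-- all factors correspond to each other because `ρ` is injective on `C'` -/
theorem rn_LC (h : Rho ρ C' l) {w' : Wts (sub D N) Z} {w : Wts D Z} (hc : Cpt w' w) (ε : ℕ → ℕ)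
    {m : ℕ} {A : Fin m → Finset (B (sub D N))} (hA : ∀ t, A t ⊆ C') :
    rn Z ρ (LC w' C' ε A) = LC w (C'.image ρ) ε fun t => (A t).image ρ := by
  rw [LC, LC, map_prod]
  refine Finset.prod_congr rfl fun t _ => ?_
  rw [map_mul, map_mul, map_pow, RhoE_qC h (hA t)]
  congr 2
  · rw [eC, eC, map_prod, RhoE_prod h (hA t)]
    refine Finset.prod_congr rfl fun b _ => ?_
    rw [RhoE_sdiff h (hA t), map_prod, RhoE_prod h Finset.sdiff_subset]
    exact Finset.prod_congr rfl fun c _ => hc.h ρ h.col b c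
  · rw [zs, zs, map_prod, RhoE_prod h (hA t)]
    congr 1
    exact Finset.prod_congr rfl fun b _ => hc.z ρ h.col b

/-- Proof: check the three kinds of variables. `rn ρ (ps (A t) i j) = ps ((A t).image ρ) i j`;
`rn ρ (ps univ i j) = ∑ b', [b'.1 = i] x (ρ b') ^ j = ∑ a, [a.1 = i] l a * x a ^ j =
∑ t, ps ((A t).image ρ) i j` by `cnt` and `rho_ind`. -/
theorem rn_evA (h : Rho ρ C' l) {m : ℕ} {A : Fin m → Finset (B (sub D N))}
    (hA : ∑ t, ind (sub D N) (A t) = pull ρ C' l) (Q : PP D Z m) :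
    rn Z ρ (evA (sub D N) Z A Q) = evA D Z (fun t => (A t).image ρ) (th D Z m Q) := by
  have hs : ∀ t, A t ⊆ C' := fun t => rho_sub h hA t
  have hl : ∑ t, ind D ((A t).image ρ) = l := (rho_ind h hs).2 hA
  have key : (rn Z ρ).comp (evA (sub D N) Z A) =
      (evA D Z (fun t => (A t).image ρ)).comp (th D Z m) := by
    refine MvPolynomial.algHom_ext fun v => ?_
    rcases v with p | p | z
    · rw [AlgHom.comp_apply, AlgHom.comp_apply, evA, aeval_X, th, aeval_X]
      simp only [Sum.elim_inl]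
      rw [evA, aeval_X]
      exact RhoE_ps_image h (hs p.1) p.2.1 p.2.2
    · rw [AlgHom.comp_apply, AlgHom.comp_apply, evA, aeval_X, th, aeval_X]
      simp only [Sum.elim_inl, Sum.elim_inr, map_sum]
      refine (RhoE_ps h _ _ _).trans ((RhoE_univ h (fun a : B D =>
        if a.1 = p.1 then xx D Z a ^ p.2 else 0)).trans ?_)
      simp only [evA, aeval_X, Sum.elim_inl, ps]
      have h1 : ∀ t : Fin m, ∀ F : B D → S D Z, ∑ a ∈ (A t).image ρ, F a =
          ∑ a, ind D ((A t).image ρ) a • F a := by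
        intro t F
        rw [← Finset.sum_subset (Finset.subset_univ ((A t).image ρ))]
        · refine Finset.sum_congr rfl fun a ha => ?_
          rw [ind, if_pos ha, one_zsmul]
        · intro a _ ha
          rw [ind, if_neg ha, zero_zsmul]
      simp only [h1]
      rw [Finset.sum_comm]
      refine Finset.sum_congr rfl fun a _ => ?_
      rw [← Finset.sum_smul, ← hl, Finset.sum_apply]
    · rw [AlgHom.comp_apply, AlgHom.comp_apply, evA, aeval_X, th, aeval_X]
      simp only [Sum.elim_inr]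
      rw [evA, aeval_X, rn, rename_X]
      rfl
  exact DFunLike.congr_fun key Q

/-- for `l = ind A`: `rn ρ (evS univ q) = evS A q` -/
lemma rn_evS {A : Finset (B D)} (h : Rho ρ C' (ind D A)) (q : PQ D Z) :
    rn Z ρ (evS (sub D N) Z Finset.univ q) = evS D Z A q := by
  have key : (rn Z ρ).comp (evS (sub D N) Z Finset.univ) = evS D Z A := by
    refine MvPolynomial.algHom_ext fun v => ?_
    rcases v with p | z
    · rw [AlgHom.comp_apply, evS, aeval_X, evS, aeval_X]
      simp only [Sum.elim_inl]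
      refine (RhoE_ps h _ _ _).trans ((RhoE_univ h (fun a : B D =>
        if a.1 = p.1 then xx D Z a ^ p.2 else 0)).trans ?_)
      rw [ps, ← Finset.sum_subset (Finset.subset_univ A)]
      · refine Finset.sum_congr rfl fun a ha => ?_
        rw [ind, if_pos ha, one_zsmul]
      · intro a _ ha
        rw [ind, if_neg ha, zero_zsmul]
    · rw [AlgHom.comp_apply, evS, aeval_X, evS, aeval_X]
      simp only [Sum.elim_inr]
      rw [rn, rename_X]
      rfl
  exact DFunLike.congr_fun key q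

end Vale.Agent.P291.H.N
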